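import Crest.Agent.N067.S.NSZ
import Crest.Agent.N067.S.Defs
import Crest.Agent.N067.K.PsiMass
import Crest.Agent.N067.U.Pup
import Crest.Agent.N067.M.FlatU
import Crest.Agent.N067.V.Weak
import Crest.Agent.N067.A.Dual

-- ▼ part N067/S/Top0
section

/-!
Row 67, block STAB (helper8): the assembly, real part.  All pair integrals of the extended test
function `f` are finite, so the bookkeeping is done with the real numbers `II v _`.
-/

set_option autoImplicit false

open MeasureTheory Laplacian InnerProductSpace Topology Filter Set Metric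
open scoped RealInnerProductSpace ContDiff Gradient ENNReal

namespace Crest.Agent.N067.S.Tp

open Crest.Agent.R077 Crest.Agent.N067.Ker Crest.Agent.N067.M Crest.Agent.N067.S.Nz

noncomputable section

variable {n : ℕ} {v f : EE n → ℝ} {A : ℝ}

open Classical in
/-- real indicator -/
def ri (P : Prop) : ℝ := if P then 1 else 0

theorem ri_of {P : Prop} (h : P) : ri P = 1 := by simp [ri, h]

theorem ri_of_not {P : Prop} (h : ¬P) : ri P = 0 := by simp [ri, h]

theorem ri_nonneg (P : Prop) : 0 ≤ ri P := by unfold ri; split_ifs <;> simp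

theorem abs_ri_le (P : Prop) : |ri P| ≤ 1 := by unfold ri; split_ifs <;> simp

theorem measurable_ri {α : Type*} [MeasurableSpace α] {P : α → Prop}
    (h : MeasurableSet {a | P a}) : Measurable fun a => ri (P a) := by
  classical
  have : (fun a => ri (P a)) = fun a => if P a then (1 : ℝ) else 0 := by
    funext a; unfold ri; congr
  rw [this]
  exact Measurable.ite h measurable_const measurable_const

theorem ind_mul (P : Prop) (k : ℝ≥0∞) (a : ℝ) : ind P * (k * oR a) = k * oR (ri P * a) := by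
  by_cases h : P
  · simp [ind_of h, ri_of h]
  · simp [ind_of_not h, ri_of_not h]

theorem Ec_eq (hv : Sol v) (hf : Ad v f A) {P : EE n → EE n → Prop}
    (hP : MeasurableSet {p : EE n × EE n | P p.1 p.2}) :
    Ec v f P = oR (II v fun p => ri (P p.1 p.2) * (f p.1 - f p.2) ^ 2) := by
  rw [oR, ← LI_eq hv hf (hf.domd.bmul (measurable_ri hP) fun p => abs_ri_le _)
    fun p => mul_nonneg (ri_nonneg _) (sq_nonneg _)]
  simp only [Ec, LI, ind_mul]

theorem E0_eq (hv : Sol v) (hf : Ad v f A) : E0 v f = oR (II v fun p => (f p.1 - f p.2) ^ 2) :=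
  LI_eq hv hf hf.domd fun _ => sq_nonneg _

theorem domt (hv : Sol v) (hf : Ad v f A) : Dom f fun p => tt v p.2 * f p.1 ^ 2 :=
  hf.dom11.bmul (c := fun p => tt v p.2) (hv.tt_sm.continuous.measurable.comp measurable_snd)
    fun p => abs_tt_le hv p.2

theorem Tt_eq (hv : Sol v) (hf : Ad v f A) : Tt v f = oR (II v fun p => tt v p.2 * f p.1 ^ 2) :=
  LI_eq hv hf (domt hv hf) fun _ => mul_nonneg (hv.tt_nonneg _) (sq_nonneg _)

/-! ### the profile -/

theorem pf_nonneg {ε s : ℝ} (hε : 0 < ε) (hs : 0 ≤ s) : 0 ≤ pf ε s :=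
  mul_nonneg (by positivity) (sub_nonneg.2 (Real.le_sqrt_of_sq_le (by linarith)))

theorem pf_le {ε u b : ℝ} (hε : 0 < ε) (hu : 0 ≤ u) (hb : 0 ≤ b) :
    pf ε (u ^ 2 + b) ≤ 2 * ε * u + b := by
  have h1 : √(ε ^ 2 + (u ^ 2 + b)) ≤ ε + u + b / (2 * ε) := by
    refine Real.sqrt_le_iff.2 ⟨by positivity, ?_⟩
    have h2 : 0 ≤ b / (2 * ε) := by positivity
    have h3 : 2 * ε * (b / (2 * ε)) = b := by field_simp
    nlinarith [mul_nonneg hε.le hu, mul_nonneg hu h2, sq_nonneg (b / (2 * ε))]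
  have h3 : 2 * ε * (b / (2 * ε)) = b := by field_simp
  unfold pf
  nlinarith

theorem NN_le1 (hv : Sol v) (x : EE n) : NN v x ≤ 1 := hv.norm_grad_dd_le x

theorem pf_le_four (hv : Sol v) {ε : ℝ} (hε : 0 < ε) (x y : EE n) :
    pf ε (‖nn v y - nn v x‖ ^ 2) ≤ 4 * ε := by
  have h := pf_le hε (norm_nonneg (nn v y - nn v x)) le_rfl
  have h2 : ‖nn v y - nn v x‖ ≤ 2 :=
    (norm_sub_le _ _).trans ((add_le_add (NN_le1 hv y) (NN_le1 hv x)).trans_eq (by norm_num))
  rw [add_zero, add_zero] at h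
  nlinarith

theorem pf_le_gf (hv : Sol v) {ε : ℝ} (hε : 0 < ε) (x y : EE n) :
    pf ε (‖nn v y - nn v x‖ ^ 2) ≤ 2 * gf v x y + 2 * ε * (tt v x + tt v y) := by
  have e : ‖nn v y - nn v x‖ ^ 2 = |NN v x - NN v y| ^ 2 + 2 * gf v x y := by
    rw [sq_abs, @norm_sub_sq_real, real_inner_comm]; simp only [gf, NN]; ring
  have h := pf_le hε (abs_nonneg (NN v x - NN v y)) (mul_nonneg zero_le_two (gf_nonneg v x y))
  have h1 := NN_le1 hv x
  have h2 := NN_le1 hv y
  have h3 : 0 ≤ NN v x := norm_nonneg _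
  have h4 : 0 ≤ NN v y := norm_nonneg _
  have h5 : |NN v x - NN v y| ≤ tt v x + tt v y := by
    change _ ≤ 1 - NN v x ^ 2 + (1 - NN v y ^ 2)
    exact abs_le.2 ⟨by nlinarith, by nlinarith⟩
  rw [e]
  nlinarith

theorem measurable_pf (hv : Sol v) (ε : ℝ) :
    Measurable fun p : EE n × EE n => pf ε (‖nn v p.2 - nn v p.1‖ ^ 2) := by
  have h : Continuous (nn v) := St.continuous_grad (hv.dd_cd 1)
  unfold pf
  fun_prop

/-! ### the two pointwise inequalities -/

theorem pt_E {a b w o c : ℝ} (ha : 0 ≤ a) (hb : 0 ≤ b) (hc : 0 ≤ c)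
    (h : o = 1 ∧ w ≤ -1 / 8 ∨ o = 0 ∧ 1 ≤ c) :
    (a - b) ^ 2 ≤ 8 * (o * -w * (a + b) ^ 2) + c * (a - b) ^ 2 := by
  rcases h with ⟨rfl, h⟩ | ⟨rfl, h⟩
  · nlinarith [mul_nonneg ha hb, mul_nonneg hc (sq_nonneg (a - b)),
      mul_nonneg (show 0 ≤ -w - 1 / 8 by linarith) (sq_nonneg (a + b))]
  · nlinarith [mul_nonneg (sub_nonneg.2 h) (sq_nonneg (a - b))]

theorem pt_G {a b w q o nr c s P t t' : ℝ} (ha : 0 ≤ a) (hb : 0 ≤ b) (hc : 0 ≤ c) (hn : 0 ≤ nr)
    (hs : 0 < s) (hq0 : 0 ≤ q) (hq : q ≤ 1) (hw : -w ≤ q) (ht : 0 ≤ t) (ht' : 0 ≤ t') (h1 : t ≤ 1)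
    (h1' : t' ≤ 1) (hP : P ≤ 4 * s) (hP' : P ≤ 2 * (q - w) + 2 * s * (t + t'))
    (h : o = 1 ∧ w ≤ -1 / 8 ∨ o = 0 ∧ (1 ≤ nr ∨ 1 ≤ c)) :
    (1 - 16 * s) * (o * -w * (a + b) ^ 2) + 1 / 2 * (P * a ^ 2) + 1 / 2 * (P * b ^ 2) +
      q * (a - b) ^ 2 ≤ (q - w) * (a ^ 2 + b ^ 2) + nr * q * (a - b) ^ 2 + c * (a - b) ^ 2 +
        3 * s * (t' * a ^ 2) + 3 * s * (t * b ^ 2) + 4 * s * (a - b) ^ 2 := by
  have hd := sq_nonneg (a - b)
  have hab := mul_nonneg ha hb
  have e1 := mul_nonneg (mul_nonneg hn hq0) hd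
  have e2 := mul_nonneg hc hd
  have e3 : 0 ≤ s * (t' * a ^ 2) := by positivity
  have e4 : 0 ≤ s * (t * b ^ 2) := by positivity
  have e5 : 0 ≤ s * (a - b) ^ 2 := by positivity
  have e6 : 0 ≤ a ^ 2 + b ^ 2 := by positivity
  rcases h with ⟨rfl, h⟩ | ⟨rfl, h⟩
  · have f1 := mul_le_mul_of_nonneg_right hP e6
    have f2 : 0 ≤ s * ((-w - 1 / 8) * (a + b) ^ 2) :=
      mul_nonneg hs.le (mul_nonneg (by linarith) (sq_nonneg _))
    have f3 := mul_nonneg (show 0 ≤ q + w by linarith) hab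
    have f4 := mul_nonneg hs.le hab
    nlinarith
  · have f1 := mul_le_mul_of_nonneg_right hP' e6
    have f2 : t * a ^ 2 ≤ 2 * (t * b ^ 2) + 2 * (a - b) ^ 2 := by
      nlinarith [mul_nonneg ht (sq_nonneg (a - 2 * b)), mul_nonneg (sub_nonneg.2 h1) hd]
    have f3 : t' * b ^ 2 ≤ 2 * (t' * a ^ 2) + 2 * (a - b) ^ 2 := by
      nlinarith [mul_nonneg ht' (sq_nonneg (b - 2 * a)), mul_nonneg (sub_nonneg.2 h1') hd]
    have f4 := mul_le_mul_of_nonneg_left f2 hs.le
    have f5 := mul_le_mul_of_nonneg_left f3 hs.le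
    have f6 : q * (a - b) ^ 2 ≤ nr * q * (a - b) ^ 2 + c * (a - b) ^ 2 := by
      rcases h with h | h
      · nlinarith [mul_nonneg (sub_nonneg.2 h) (mul_nonneg hq0 hd)]
      · nlinarith [mul_nonneg (sub_nonneg.2 h) hd, mul_nonneg (sub_nonneg.2 hq) hd]
    nlinarith

/-! ### the classes of pairs -/

def PO (v : EE n → ℝ) (T : ℝ) (x y : EE n) : Prop :=
  |dd v x| ≤ T ∧ |dd v y| ≤ T ∧ ⟪nn v x, nn v y⟫ ≤ -1 / 8
def PN (v : EE n → ℝ) (T L : ℝ) (x y : EE n) : Prop := |dd v x| ≤ T ∧ |dd v y| ≤ T ∧ dist x y ≤ L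
def PF (v : EE n → ℝ) (T L : ℝ) (x y : EE n) : Prop :=
  |dd v x| ≤ T ∧ |dd v y| ≤ T ∧ L < dist x y ∧ -1 / 8 < ⟪nn v x, nn v y⟫

theorem md (hv : Sol v) : Measurable (dd v) := (hv.dd_cd 1).continuous.measurable

theorem mb1 (hv : Sol v) (T : ℝ) : MeasurableSet {p : EE n × EE n | |dd v p.1| ≤ T} :=
  measurableSet_le ((md hv).comp measurable_fst).abs measurable_const

theorem mb2 (hv : Sol v) (T : ℝ) : MeasurableSet {p : EE n × EE n | |dd v p.2| ≤ T} :=
  measurableSet_le ((md hv).comp measurable_snd).abs measurable_const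

theorem mPO (hv : Sol v) (T : ℝ) : MeasurableSet {p : EE n × EE n | PO v T p.1 p.2} :=
  (mb1 hv T).inter ((mb2 hv T).inter (measurableSet_le (measurable_nn hv) measurable_const))

theorem mPN (hv : Sol v) (T L : ℝ) : MeasurableSet {p : EE n × EE n | PN v T L p.1 p.2} :=
  (mb1 hv T).inter ((mb2 hv T).inter (measurableSet_le measurable_dist measurable_const))

theorem mPF (hv : Sol v) (T L : ℝ) : MeasurableSet {p : EE n × EE n | PF v T L p.1 p.2} :=
  (mb1 hv T).inter ((mb2 hv T).inter ((measurableSet_lt measurable_const measurable_dist).inter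
    (measurableSet_lt measurable_const (measurable_nn hv))))

theorem mPD (hv : Sol v) (T : ℝ) : MeasurableSet {p : EE n × EE n | T < |dd v p.2|} :=
  measurableSet_lt measurable_const ((md hv).comp measurable_snd).abs

theorem cover (v : EE n → ℝ) (T L : ℝ) (x y : EE n) :
    ri (PO v T x y) = 1 ∧ ⟪nn v x, nn v y⟫ ≤ -1 / 8 ∨ ri (PO v T x y) = 0 ∧ (1 ≤ ri (PN v T L x y) ∨
      1 ≤ ri (PF v T L x y) + ri (T < |dd v y|) + ri (T < |dd v x|)) := by
  by_cases h : PO v T x y
  · exact Or.inl ⟨ri_of h, h.2.2⟩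
  refine Or.inr ⟨ri_of_not h, ?_⟩
  have h1 := ri_nonneg (PF v T L x y)
  have h2 := ri_nonneg (T < |dd v y|)
  have h3 := ri_nonneg (T < |dd v x|)
  by_cases hx : T < |dd v x|
  · exact Or.inr (by linarith [ri_of hx])
  by_cases hy : T < |dd v y|
  · exact Or.inr (by linarith [ri_of hy])
  by_cases hd : dist x y ≤ L
  · exact Or.inl (ri_of (P := PN v T L x y) ⟨not_lt.1 hx, not_lt.1 hy, hd⟩).ge
  have : PF v T L x y := ⟨not_lt.1 hx, not_lt.1 hy, not_le.1 hd,
    not_le.1 fun h' => h ⟨not_lt.1 hx, not_lt.1 hy, h'⟩⟩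
  exact Or.inr (by linarith [ri_of this])

/-- the real numbers of the assembly -/
def rE (v f : EE n → ℝ) : ℝ := II v fun p => (f p.1 - f p.2) ^ 2
def rT (v f : EE n → ℝ) : ℝ := II v fun p => tt v p.2 * f p.1 ^ 2
def rG (v f : EE n → ℝ) (T : ℝ) : ℝ :=
  II v fun p => ri (PO v T p.1 p.2) * -⟪nn v p.1, nn v p.2⟫ * (f p.1 + f p.2) ^ 2
def rP (v f : EE n → ℝ) (s : ℝ) : ℝ := II v fun p => pf s (‖nn v p.2 - nn v p.1‖ ^ 2) * f p.1 ^ 2
def rN (v f : EE n → ℝ) (T L : ℝ) : ℝ :=
  II v fun p => ri (PN v T L p.1 p.2) * (NN v p.1 * NN v p.2) * (f p.1 - f p.2) ^ 2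
def rC (v f : EE n → ℝ) (P : EE n → EE n → Prop) : ℝ :=
  II v fun p => ri (P p.1 p.2) * (f p.1 - f p.2) ^ 2

theorem domG (hv : Sol v) (hf : Ad v f A) (T : ℝ) :
    Dom f fun p => ri (PO v T p.1 p.2) * -⟪nn v p.1, nn v p.2⟫ * (f p.1 + f p.2) ^ 2 := by
  have h : Dom f fun p => (f p.1 + f p.2) ^ 2 := by
    have := (hf.dom11.add hf.dom22).add (hf.dom12.cmul 2)
    convert this using 2
    ring
  simpa only [mul_assoc] using (h.bmul (c := fun p => -⟪nn v p.1, nn v p.2⟫) (measurable_nn hv).neg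
    (A := 1) fun p => by rw [abs_neg]; exact abs_nn_le hv p).bmul (measurable_ri (mPO hv T))
      fun p => abs_ri_le _

theorem G_nonneg (v f : EE n → ℝ) (T : ℝ) (p : EE n × EE n) :
    0 ≤ ri (PO v T p.1 p.2) * -⟪nn v p.1, nn v p.2⟫ * (f p.1 + f p.2) ^ 2 := by
  by_cases h : PO v T p.1 p.2
  · exact mul_nonneg (mul_nonneg (ri_nonneg _) (by linarith [h.2.2])) (sq_nonneg _)
  · simp [ri_of_not h]

theorem domP (hv : Sol v) (hf : Ad v f A) {s : ℝ} (hs : 0 < s) :
    Dom f fun p => pf s (‖nn v p.2 - nn v p.1‖ ^ 2) * f p.1 ^ 2 :=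
  hf.dom11.bmul (measurable_pf hv s) (A := 4 * s) fun p => by
    rw [abs_of_nonneg (pf_nonneg hs (sq_nonneg _))]; exact pf_le_four hv hs _ _

theorem domN (hv : Sol v) (hf : Ad v f A) (T L : ℝ) :
    Dom f fun p => ri (PN v T L p.1 p.2) * (NN v p.1 * NN v p.2) * (f p.1 - f p.2) ^ 2 := by
  simpa only [mul_assoc] using (hf.domd.bmul (c := fun p => NN v p.1 * NN v p.2)
    (measurable_NN hv) (abs_NN_le hv)).bmul (measurable_ri (mPN hv T L)) fun p => abs_ri_le _

theorem domC (hf : Ad v f A) {P : EE n → EE n → Prop}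
    (hP : MeasurableSet {p : EE n × EE n | P p.1 p.2}) :
    Dom f fun p => ri (P p.1 p.2) * (f p.1 - f p.2) ^ 2 :=
  hf.domd.bmul (measurable_ri hP) fun _ => abs_ri_le _

theorem rC_swap (v f : EE n → ℝ) (T : ℝ) :
    II v (fun p => ri (T < |dd v p.1|) * (f p.2 - f p.1) ^ 2) = rC v f fun _ y => T < |dd v y| :=
  II_swap v fun p => ri (T < |dd v p.2|) * (f p.1 - f p.2) ^ 2

/-- the full form is carried by the four classes -/
theorem rE_le (hv : Sol v) (hf : Ad v f A) (h0 : ∀ x, 0 ≤ f x) (T L : ℝ) :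
    rE v f ≤ 8 * rG v f T + rC v f (PN v T L) + rC v f (PF v T L) +
      2 * rC v f fun _ y => T < |dd v y| := by
  have d1 := (domG hv hf T).cmul 8
  have d2 := domC hf (mPN hv T L)
  have d3 := domC hf (mPF hv T L)
  have d4 := domC hf (P := fun _ y => T < |dd v y|) (mPD hv T)
  have d5 : Dom f fun p => ri (T < |dd v p.1|) * (f p.2 - f p.1) ^ 2 := d4.swap
  have h := II_mono hv hf hf.domd ((((d1.add d2).add d3).add d4).add d5) fun p => by
    have := pt_E (h0 p.1) (h0 p.2) (o := ri (PO v T p.1 p.2)) (w := ⟪nn v p.1, nn v p.2⟫)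
      (c := ri (PN v T L p.1 p.2) + (ri (PF v T L p.1 p.2) + ri (T < |dd v p.2|) +
        ri (T < |dd v p.1|))) (add_nonneg (ri_nonneg _) (add_nonneg (add_nonneg (ri_nonneg _)
          (ri_nonneg _)) (ri_nonneg _))) ((cover v T L p.1 p.2).imp id (And.imp_right fun h => by
            rcases h with h | h
            · linarith [ri_nonneg (PF v T L p.1 p.2), ri_nonneg (T < |dd v p.2|),
                ri_nonneg (T < |dd v p.1|)]
            · linarith [ri_nonneg (PN v T L p.1 p.2)]))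
    linarith
  rw [II_add hv hf (((d1.add d2).add d3).add d4) d5, II_add hv hf ((d1.add d2).add d3) d4,
    II_add hv hf (d1.add d2) d3, II_add hv hf d1 d2, II_const_mul, rC_swap] at h
  unfold rE rG
  unfold rC at h ⊢
  linarith

/-- NSZ split into the classes -/
theorem gain_le (hv : Sol v) (hst : Stable v) (hf : Ad v f A) (h0 : ∀ x, 0 ≤ f x) (T L : ℝ) {s : ℝ}
    (hs : 0 < s) : (1 - 16 * s) * rG v f T + rP v f s ≤ rN v f T L + rC v f (PF v T L) +
      2 * rC v f (fun _ y => T < |dd v y|) + 6 * s * rT v f + 4 * s * rE v f := by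
  have a1 := (domG hv hf T).cmul (1 - 16 * s)
  have a2 := (domP hv hf hs).cmul (1 / 2)
  have a3 : Dom f fun p => 1 / 2 * (pf s (‖nn v p.1 - nn v p.2‖ ^ 2) * f p.2 ^ 2) := a2.swap
  have a4 := hf.domd.bmul (measurable_NN hv) (abs_NN_le hv)
  have b0 := hf.dom11.bmul (measurable_gf hv) (abs_gf_le hv)
  have b1 := hf.dom22.bmul (measurable_gf hv) (abs_gf_le hv)
  have b2 := domN hv hf T L
  have b3 := domC hf (mPF hv T L)
  have b4 := domC hf (P := fun _ y => T < |dd v y|) (mPD hv T)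
  have b5 : Dom f fun p => ri (T < |dd v p.1|) * (f p.2 - f p.1) ^ 2 := b4.swap
  have b6 := (domt hv hf).cmul (3 * s)
  have b7 : Dom f fun p => 3 * s * (tt v p.1 * f p.2 ^ 2) := b6.swap
  have b8 := hf.domd.cmul (4 * s)
  have h := II_mono hv hf (((a1.add a2).add a3).add a4)
    ((((((((b0.add b1).add b2).add b3).add b4).add b5).add b6).add b7).add b8) fun p => by
    have := pt_G (h0 p.1) (h0 p.2) (add_nonneg (add_nonneg (ri_nonneg _) (ri_nonneg _))
      (ri_nonneg _)) (ri_nonneg _) hs (q := NN v p.1 * NN v p.2)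
      (mul_nonneg (norm_nonneg _) (norm_nonneg _)) (NN_le hv _ _)
      ((neg_le_abs _).trans (abs_real_inner_le_norm _ _)) (hv.tt_nonneg p.1) (hv.tt_nonneg p.2)
      (tt_le_one v p.1) (tt_le_one v p.2) (pf_le_four hv hs p.1 p.2) (pf_le_gf hv hs p.1 p.2)
      (cover v T L p.1 p.2)
    rw [norm_sub_rev (nn v p.1)]
    change _ + NN v p.1 * NN v p.2 * _ ≤ _
    unfold gf
    linarith
  rw [II_add hv hf ((a1.add a2).add a3) a4, II_add hv hf (a1.add a2) a3, II_add hv hf a1 a2,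
    II_add hv hf (((((((b0.add b1).add b2).add b3).add b4).add b5).add b6).add b7) b8,
    II_add hv hf ((((((b0.add b1).add b2).add b3).add b4).add b5).add b6) b7,
    II_add hv hf (((((b0.add b1).add b2).add b3).add b4).add b5) b6,
    II_add hv hf ((((b0.add b1).add b2).add b3).add b4) b5,
    II_add hv hf (((b0.add b1).add b2).add b3) b4, II_add hv hf ((b0.add b1).add b2) b3,
    II_add hv hf (b0.add b1) b2, II_add hv hf b0 b1, rC_swap] at h
  simp only [II_const_mul] at h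
  have e1 : II v (fun p => pf s (‖nn v p.1 - nn v p.2‖ ^ 2) * f p.2 ^ 2) = rP v f s :=
    II_swap v fun p => pf s (‖nn v p.2 - nn v p.1‖ ^ 2) * f p.1 ^ 2
  have e2 : II v (fun p => tt v p.1 * f p.2 ^ 2) = rT v f :=
    II_swap v fun p => tt v p.2 * f p.1 ^ 2
  have e3 : II v (fun p => gf v p.1 p.2 * f p.2 ^ 2) = II v fun p => gf v p.1 p.2 * f p.1 ^ 2 := by
    rw [← II_swap v fun p => gf v p.1 p.2 * f p.1 ^ 2]
    simp only [Prod.fst_swap, Prod.snd_swap, gf_comm v]
  have e4 : 2 * II v (fun p => gf v p.1 p.2 * f p.1 ^ 2) ≤ _ := nsz hv hst hf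
  rw [e1, e2, e3] at h
  unfold rE rG rN
  unfold rC rP rT at h ⊢
  linarith

end

end Crest.Agent.N067.S.Tp
end

-- ▼ part N067/S/Top
section

/-!
Row 67, block STAB (helper8): the assembly, `stab_of`.
-/

set_option autoImplicit false

open MeasureTheory Laplacian InnerProductSpace Topology Filter Set Metric
open scoped RealInnerProductSpace ContDiff Gradient ENNReal

namespace Crest.Agent.N067.S

open Crest.Agent.R077 Crest.Agent.N067.Ker Crest.Agent.N067.M Crest.Agent.N067.S.Nz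

noncomputable section

namespace Tp

variable {n : ℕ} {v f z : EE n → ℝ} {A : ℝ}

theorem rE_nonneg (v f : EE n → ℝ) : 0 ≤ rE v f := II_nonneg v fun _ => sq_nonneg _

theorem rT_nonneg (hv : Sol v) (f : EE n → ℝ) : 0 ≤ rT v f :=
  II_nonneg v fun _ => mul_nonneg (hv.tt_nonneg _) (sq_nonneg _)

theorem rG_nonneg (v f : EE n → ℝ) (T : ℝ) : 0 ≤ rG v f T := II_nonneg v (G_nonneg v f T)

theorem rP_nonneg (v f : EE n → ℝ) {s : ℝ} (hs : 0 < s) : 0 ≤ rP v f s :=
  II_nonneg v fun _ => mul_nonneg (pf_nonneg hs (sq_nonneg _)) (sq_nonneg _)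

theorem two_le_SS (v : EE n → ℝ) (x : EE n) : 2 * psi v x ^ 2 ≤ SS v x := by
  unfold SS
  nlinarith [mul_nonneg (sq_nonneg (psi v x)) (sub_nonneg.2 (tt_le_one v x))]

theorem three_le_SS (hv : Sol v) (x : EE n) : 3 * NN v x * psi v x ^ 2 ≤ SS v x := by
  have h1 := NN_le1 hv x
  have h2 : 3 * NN v x ≤ 3 - tt v x := by
    change _ ≤ 3 - (1 - NN v x ^ 2)
    nlinarith
  unfold SS
  nlinarith [mul_le_mul_of_nonneg_left h2 (sq_nonneg (psi v x))]

/-- the near cost dominates the weighted near forms -/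
theorem near_le {T L : ℝ} (hz : ∀ x, |dd v x| ≤ T → f x = z x) {c : EE n → ℝ} (h0 : ∀ x, 0 ≤ c x)
    (hc : ∀ x, c x * psi v x ^ 2 ≤ SS v x) :
    LI v (fun x y => ri (PN v T L x y) * (c x * c y) * (f x - f y) ^ 2) ≤
      ∫⁻ x, ∫⁻ y, ind (|dd v x| ≤ T ∧ |dd v y| ≤ T ∧ dist x y ≤ L) *
        oR (SS v x * Gk 2 (y - x) * SS v y * (z x - z y) ^ 2) := by
  refine lintegral_mono fun x => lintegral_mono fun y => ?_
  by_cases h : PN v T L x y
  · have h' : |dd v x| ≤ T ∧ |dd v y| ≤ T ∧ dist x y ≤ L := h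
    have hG := Gk_nonneg 2 (y - x)
    simp only [ind_of h', ri_of h, one_mul, kk, hz x h.1, hz y h.2.1]
    rw [← ENNReal.ofReal_mul (by positivity)]
    refine ENNReal.ofReal_le_ofReal ?_
    have h1 := h0 x
    have h2 := h0 y
    have h3 : 0 ≤ SS v x := le_trans (by positivity) (hc x)
    calc _ = c x * psi v x ^ 2 * Gk 2 (y - x) * (c y * psi v y ^ 2) * (z x - z y) ^ 2 := by ring
      _ ≤ _ := by gcongr <;> exact hc _
  · simp [ri_of_not h]

theorem PG_le (hv : Sol v) (hf : Ad v f A) {T T0 ε : ℝ} (hT : T0 ≤ T) (hε : ε ≤ 1 / 100)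
    (hz : ∀ x, |dd v x| ≤ T → f x = z x) :
    oR (1 - ε) * PG v z (Opp v ε T0 0) ≤ oR (9 / 2 * rG v f T) := by
  have mO : ∀ x, MeasurableSet {y | Opp v ε T0 0 x y} := fun x => by
    have h : Continuous (nn v) := St.continuous_grad (hv.dd_cd 1)
    have h' := md hv
    exact (MeasurableSet.const _).inter ((measurableSet_le h'.abs measurable_const).inter
      ((measurableSet_le measurable_const (measurable_const.sub measurable_id).norm).inter
        (measurableSet_le (f := fun y => ⟪nn v x, nn v y⟫) (continuous_const.inner h).measurable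
          measurable_const)))
  rw [rG, ← II_const_mul, oR, oR, ← LI_eq hv hf ((domG hv hf T).cmul (9 / 2))
    fun p => mul_nonneg (by norm_num) (G_nonneg v f T p), PG,
    ← lintegral_const_mul' _ _ ENNReal.ofReal_ne_top]
  refine lintegral_mono fun x => ?_
  simp only
  rw [← lintegral_const_mul' _ _ ENNReal.ofReal_ne_top]
  refine le_trans (setLIntegral_mono' (mO x) fun y hy => ?_) (setLIntegral_le_lintegral _ _)
  obtain ⟨h1, h2, -, h3⟩ := hy
  have hO : PO v T x y := ⟨h1.trans hT, h2.trans hT, by linarith⟩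
  have hG := Gk_nonneg 2 (y - x)
  simp only [kk, ri_of hO, hz x hO.1, hz y hO.2.1, Gk_sub_comm 2 x y]
  rw [← ENNReal.ofReal_mul (by linarith), ← ENNReal.ofReal_mul (by positivity)]
  refine ENNReal.ofReal_le_ofReal ?_
  have : 0 ≤ psi v x ^ 2 * Gk 2 (y - x) * psi v y ^ 2 * (z x + z y) ^ 2 := by positivity
  nlinarith [mul_le_mul_of_nonneg_right (show 1 - ε ≤ -⟪nn v x, nn v y⟫ by linarith) this]

theorem pf_int_le (hv : Sol v) (hf : Ad v f A) (T : ℝ) {s : ℝ} (hs : 0 < s) :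
    ∫⁻ x, ∫⁻ y, ind (|dd v x| ≤ T) *
      (kk v x y * oR (9 / 2 * pf s (‖nn v y - nn v x‖ ^ 2) * f x ^ 2)) ≤ oR (9 / 2 * rP v f s) := by
  rw [rP, ← II_const_mul, oR, ← LI_eq hv hf ((domP hv hf hs).cmul (9 / 2))
    fun p => mul_nonneg (by norm_num) (mul_nonneg (pf_nonneg hs (sq_nonneg _)) (sq_nonneg _))]
  refine lintegral_mono fun x => lintegral_mono fun y => ind_mul_le fun _ => ?_
  simp only [mul_assoc, le_refl]

theorem It_eq (hv : Sol v) {T Λ : ℝ} (h : Λ ≤ T) (hz : ∀ x, |dd v x| ≤ T → f x = z x) :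
    ∫⁻ x in {x | |dd v x| ≤ Λ}, oR (tt v x * z x ^ 2) = It v f Λ := by
  rw [← lintegral_indicator (measurableSet_le (md hv).abs measurable_const)]
  refine lintegral_congr fun x => ?_
  by_cases hx : |dd v x| ≤ Λ
  · rw [indicator_of_mem (show x ∈ {x | |dd v x| ≤ Λ} from hx), ind_of hx, one_mul,
      hz x (hx.trans h)]
  · rw [indicator_of_notMem (show x ∉ {x | |dd v x| ≤ Λ} from hx), ind_of_not hx, zero_mul]

theorem test_bd (h9 : n ≤ 9) (hv : Sol v) {T T2 K : ℝ} (hT : T < T2) (hz : Test v T2 K z) :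
    ∃ A : ℝ, (∀ x, |dd v x| ≤ T → 0 ≤ z x ∧ z x ≤ A) ∧ IntegrableOn z {x | |dd v x| ≤ T} := by
  obtain ⟨A, hA⟩ := hz.dec
  have h1 : ∀ x, |dd v x| ≤ T → z x ≤ |A| * ((1 + ‖x‖) ^ 10)⁻¹ := fun x hx =>
    (hA x (hx.trans_lt hT)).trans (mul_le_mul_of_nonneg_right (le_abs_self _) (by positivity))
  refine ⟨|A|, fun x hx => ⟨hz.nonneg x, (h1 x hx).trans (mul_le_of_le_one_right (abs_nonneg _)
    (inv_le_one_of_one_le₀ (one_le_pow₀ (by linarith [norm_nonneg x]))))⟩, ?_⟩
  have h2 : Integrable fun x : EE n => (1 + ‖x‖) ^ (-(10 : ℝ)) :=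
    integrable_one_add_norm (by
      rw [finrank_euclideanSpace_fin]; exact_mod_cast Nat.lt_succ_of_le h9)
  refine Integrable.mono' (h2.const_mul |A|).integrableOn hz.meas.aestronglyMeasurable ?_
  refine (ae_restrict_iff' (measurableSet_le (md hv).abs measurable_const)).2
    (Eventually.of_forall fun x hx => ?_)
  rw [Real.norm_of_nonneg (hz.nonneg x), Real.rpow_neg (by positivity)]
  exact_mod_cast h1 x hx

/-- the bookkeeping -/
theorem book {ε s a E T G P N N1 F D : ℝ} (hε : 0 < ε) (hε1 : ε ≤ 1 / 100) (hs : s = ε / 1000)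
    (ha : 0 ≤ a) (hE : 0 ≤ E) (hG : 0 ≤ G) (h1 : E ≤ 8 * G + N1 + F + 2 * D)
    (h2 : (1 - 16 * s) * G + P ≤ N + F + 2 * D + 6 * s * T + 4 * s * E) (h3 : T ≤ 3 / 2 * E)
    (h4 : 9 * N ≤ 2 * (1 + ε / 2) * a) (h5 : 4 * N1 ≤ 2 * (1 + ε / 2) * a)
    (h6 : F ≤ s * E + s * T) (h7 : D ≤ s * E) :
    9 / 2 * P + 3 * s * T + s * E + s * T + (1 - ε) * (9 / 2 * G) ≤ (1 + ε) * a := by
  have hs0 : 0 < s := by linarith
  have k1 : s * T ≤ 3 / 2 * (s * E) := by nlinarith
  have k2 : s * E ≤ E / 100 := by nlinarith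
  have k3 : ε * a ≤ a / 100 := by nlinarith
  have k4 : E ≤ 16 * G + 2 * a := by nlinarith
  have k5 : s * E ≤ 16 * (s * G) + 2 * (s * a) := by nlinarith
  have k6 : ε * G = 1000 * (s * G) := by rw [hs]; ring
  have k7 : ε * a = 1000 * (s * a) := by rw [hs]; ring
  have k8 : 0 ≤ s * G := by positivity
  have k9 : 0 ≤ s * a := by positivity
  nlinarith

end Tp

open Tp

theorem stab_of {n : ℕ} (h9 : n ≤ 9) (near : NearStmt n) (bg : BGStmt n) (deep : DeepStmt n)
    (far : FarStmt n) (tg : TGStmt n) : StabStmt n := by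
  intro ε hε hε1
  obtain ⟨s, hs⟩ : ∃ s, s = ε / 1000 := ⟨_, rfl⟩
  have hs0 : 0 < s := by linarith
  obtain ⟨c1, hc1, tg1⟩ := tg 1
  refine ⟨s * c1, by positivity, fun K T1 hK => ?_⟩
  obtain ⟨L1, hL1, bg⟩ := bg ε (max T1 4) hε (by linarith)
  obtain ⟨τ0, hτ0, bg⟩ := bg s s hs0 hs0
  obtain ⟨Td, hTd, deep⟩ := deep s hs0
  obtain ⟨T, hT1, hT2⟩ : ∃ T, max T1 4 + L1 ≤ T ∧ Td ≤ T := ⟨_, le_max_left _ _, le_max_right _ _⟩
  have hT0 : max T1 4 ≤ T := by linarith
  obtain ⟨cT, hcT, tgT⟩ := tg T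
  obtain ⟨L, hL, far⟩ := far K T s (s * cT) hK hs0 (by positivity)
  obtain ⟨T2, hT, near⟩ := near (ε / 2) T L (by linarith) hL
  refine ⟨max T1 4, T2, τ0, le_max_left _ _, le_max_right _ _, by linarith, hτ0,
    fun v z hv hst hz => ?_⟩
  obtain ⟨A, hA, hi⟩ := test_bd h9 hv hT hz
  obtain ⟨f, hf', hfz, deep⟩ := deep T A v z hT2 hv hz.meas hA hi
  have hf := ad_of_adm hf'
  specialize near v z hv hz.meas hz.lip
  specialize far v f hv hst hf'.meas hf'.nonneg fun x y hx hy => by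
    rw [hfz x hx, hfz y hy]; exact hz.cmp x y (hx.trans_lt hT) (hy.trans_lt hT)
  specialize bg v f T hv hf'.meas hT1
  specialize tg1 v f hv hf'.meas
  specialize tgT v f hv hf'.meas
  generalize ∫⁻ x in {x | |dd v x| < T2}, ENNReal.ofReal (psi v x ^ 2 * gsq z x) = a at near ⊢
  induction a with
  | top => rw [ENNReal.mul_top (by simp; linarith)]; exact le_top
  | coe a => ?_
  have ha : (0 : ℝ) ≤ a := a.2
  have hE := rE_nonneg v f
  have hT' := rT_nonneg hv f
  have hG := rG_nonneg v f T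
  have hP := rP_nonneg v f hs0
  have eE : E0 v f = oR (rE v f) := E0_eq hv hf
  have eT : Tt v f = oR (rT v f) := Tt_eq hv hf
  rw [← ENNReal.ofReal_coe_nnreal, ← ENNReal.ofReal_mul (by positivity)] at near ⊢
  have n1 : 9 * rN v f T L ≤ 2 * (1 + ε / 2) * a := by
    have h := (near_le (L := L) hfz (c := fun x => 3 * NN v x)
      (fun x => mul_nonneg zero_le_three (norm_nonneg _)) (three_le_SS hv)).trans near
    rw [← ENNReal.ofReal_le_ofReal_iff (by positivity), rN, ← II_const_mul,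
      ← LI_eq hv hf ((domN hv hf T L).cmul 9) fun p => mul_nonneg (by norm_num) (mul_nonneg
        (mul_nonneg (ri_nonneg _) (mul_nonneg (norm_nonneg _) (norm_nonneg _))) (sq_nonneg _))]
    refine le_trans (le_of_eq ?_) h
    congr 1
    funext x y
    ring
  have n2 : 4 * rC v f (PN v T L) ≤ 2 * (1 + ε / 2) * a := by
    have h := (near_le (L := L) hfz (c := fun _ => 2) (fun _ => zero_le_two)
      (two_le_SS v)).trans near
    rw [← ENNReal.ofReal_le_ofReal_iff (by positivity), rC, ← II_const_mul,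
      ← LI_eq hv hf ((domC hf (mPN hv T L)).cmul 4) fun p => mul_nonneg (by norm_num)
        (mul_nonneg (ri_nonneg _) (sq_nonneg _))]
    refine le_trans (le_of_eq ?_) h
    congr 1
    funext x y
    ring
  have n3 : rC v f (PF v T L) ≤ s * rE v f + s * rT v f := by
    rw [← ENNReal.ofReal_le_ofReal_iff (by positivity), ENNReal.ofReal_add (by positivity)
      (by positivity), ENNReal.ofReal_mul hs0.le, ENNReal.ofReal_mul hs0.le]
    refine (Ec_eq hv hf (mPF hv T L)).ge.trans (far.trans ?_)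
    rw [eE]
    unfold oR
    rw [ENNReal.ofReal_mul hs0.le, mul_assoc]
    exact add_le_add le_rfl (mul_le_mul' le_rfl (tgT.trans_eq eT))
  have n4 : rC v f (fun _ y => T < |dd v y|) ≤ s * rE v f := by
    rw [← ENNReal.ofReal_le_ofReal_iff (by positivity), ENNReal.ofReal_mul hs0.le]
    exact (Ec_eq hv hf (P := fun _ y => T < |dd v y|) (mPD hv T)).ge.trans
      (deep.trans_eq (by rw [eE]))
  have key := book hε hε1 hs ha hE hG (rE_le hv hf hf'.nonneg T L)
    (gain_le hv hst hf hf'.nonneg T L hs0) (d1 hv hst hf) n1 n2 n3 n4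
  refine le_trans ?_ (ENNReal.ofReal_le_ofReal key)
  have h1ε : 0 ≤ 1 - ε := by linarith
  rw [ENNReal.ofReal_add (by positivity) (by positivity),
    ENNReal.ofReal_add (by positivity) (by positivity)]
  refine add_le_add (add_le_add ?_ ?_) ?_
  · rw [ENNReal.ofReal_add (by positivity) (by positivity),
      ENNReal.ofReal_add (by positivity) (by positivity), ENNReal.ofReal_mul (p := 3 * s)
        (by positivity), ENNReal.ofReal_mul hs0.le]
    refine le_trans (le_of_eq ?_) (bg.trans ?_)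
    · congr 1
      refine setLIntegral_congr_fun ((measurableSet_le (md hv).abs measurable_const).inter
        (measurableSet_le hv.tt_sm.continuous.measurable measurable_const)) fun x hx => ?_
      simp only [hfz x (hx.1.trans hT0)]
    · rw [eE, eT]
      exact add_le_add (add_le_add (pf_int_le hv hf T hs0) le_rfl) le_rfl
  · rw [ENNReal.ofReal_mul hs0.le, ENNReal.ofReal_mul hs0.le, mul_assoc]
    refine mul_le_mul' le_rfl (le_trans (le_of_eq ?_) (tg1.trans_eq eT))
    rw [← It_eq hv (by linarith [le_max_right T1 4]) hfz]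
  · rw [ENNReal.ofReal_mul h1ε]
    refine le_trans ?_ (mul_le_mul' le_rfl (PG_le hv hf hT0 hε1 hfz))
    rw [← mul_assoc, oR, ← ENNReal.ofReal_mul h1ε]
    exact mul_le_mul' (ENNReal.ofReal_le_ofReal (by nlinarith)) le_rfl

/-- the master form -/
theorem mstab_of {n : ℕ} (h : StabStmt n) : M.StabStmt n := fun ε hε hε1 => by
  obtain ⟨e0, he0, h⟩ := h ε hε hε1
  refine ⟨e0, he0, fun K T1 hK => ?_⟩
  obtain ⟨T0, T2, τ0, h1, h2, h3, h4, h⟩ := h K T1 hK
  exact ⟨T0, T2, τ0, h1, h2, h3, h4, fun v z hv hz => h v z hv.toSol hv.stab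
    ⟨fun x => (hz.pos x).le, hz.meas, hz.lip, hz.dec, hz.cmp⟩⟩

end

end Crest.Agent.N067.S
end

-- ▼ part N067/S/BG
section

/-!
# Row 67, block STAB: the gain of `|B|²` (helper31)
-/

set_option autoImplicit false

open MeasureTheory Laplacian InnerProductSpace Topology Filter Set Metric
open scoped RealInnerProductSpace ContDiff Gradient ENNReal NNReal

namespace Crest.Agent.N067.S

open Crest.Agent.R077 Crest.Agent.N067.Ker Crest.Agent.N067.M

variable {n : ℕ}

namespace BG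

theorem tail (n : ℕ) {η : ℝ} (hη : 0 < η) : ∃ L : ℝ, 0 < L ∧ ∀ y : EE n,
    ∫⁻ x, ind (L ≤ ‖y - x‖) * oR (3 * Gk 2 (y - x)) ≤ oR η := by
  have i := integrable_Gk_exp (n := n) (μ := 2) (a := 1) two_pos (by norm_num)
  have n0 : ∀ z : EE n, 0 ≤ Gk 2 z * Real.exp (1 * ‖z‖) := fun z =>
    mul_nonneg (Gk_nonneg 2 z) (Real.exp_pos _).le
  obtain ⟨K, hK⟩ : ∃ K, K = ∫ z : EE n, Gk 2 z * Real.exp (1 * ‖z‖) := ⟨_, rfl⟩
  have hK0 : 0 ≤ K := hK ▸ integral_nonneg n0
  obtain ⟨L, hL⟩ : ∃ L, L = 3 * K / η + 1 := ⟨_, rfl⟩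
  refine ⟨L, by rw [hL]; positivity, fun y => ?_⟩
  rw [lintegral_sub_left_eq_self (fun z : EE n => ind (L ≤ ‖z‖) * oR (3 * Gk 2 z)) y]
  calc _ ≤ ∫⁻ z : EE n, oR (3 * Real.exp (-L) * (Gk 2 z * Real.exp (1 * ‖z‖))) := by
        refine lintegral_mono fun z => ind_mul_le fun h => ENNReal.ofReal_le_ofReal ?_
        have h1 : 1 ≤ Real.exp (-L) * Real.exp (1 * ‖z‖) := by
          rw [← Real.exp_add]; exact Real.one_le_exp (by linarith)
        nlinarith [Gk_nonneg 2 z]
    _ = oR (3 * Real.exp (-L) * K) := by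
        rw [← ofReal_integral_eq_lintegral_ofReal (i.const_mul _)
          (Eventually.of_forall fun z => mul_nonneg (by positivity) (n0 z)), integral_const_mul, hK]
    _ ≤ _ := by
        refine ENNReal.ofReal_le_ofReal ?_
        have h1 := Real.add_one_le_exp L
        have h2 : 3 * K ≤ η * Real.exp L := by
          rw [← div_le_iff₀' hη]; linarith
        rw [Real.exp_neg, mul_right_comm, ← div_eq_mul_inv, div_le_iff₀ (Real.exp_pos _)]
        exact h2

theorem psi_ge {v : EE n → ℝ} (hv : Sol v) {y : EE n} {T : ℝ} (h : |dd v y| ≤ T) :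
    (Real.exp T ^ 2)⁻¹ ≤ psi v y := by
  have h1 := cosh_le_exp_mul 0 (dd v y / Real.sqrt 2)
  rw [Real.cosh_zero, mul_one, zero_sub, abs_neg, abs_div, abs_of_pos sqrt2_pos] at h1
  have h2 : |dd v y| / Real.sqrt 2 ≤ T :=
    (div_le_self (abs_nonneg _) (Real.one_le_sqrt.2 one_le_two)).trans h
  have h3 := Real.cosh_pos (dd v y / Real.sqrt 2)
  rw [hv.psi_eq_cosh, one_div]
  exact inv_anti₀ (by positivity) (pow_le_pow_left₀ h3.le (h1.trans (Real.exp_le_exp.2 h2)) 2)

theorem mass {v : EE n → ℝ} (hv : Sol v) {y : EE n} {L η a : ℝ} (ha : 0 ≤ a) (ha1 : a ≤ 1)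
    (hL : ∫⁻ x, ind (L ≤ ‖y - x‖) * oR (3 * Gk 2 (y - x)) ≤ oR η) (hη : η ≤ a * psi v y) :
    oR ((1 - a) * psi v y) ≤ ∫⁻ x, ind (‖y - x‖ < L) * oR (3 * psi v x ^ 2 * Gk 2 (y - x)) := by
  have hψ := IsSol.psi_mem hv.isSol
  have cψ := hv.psi_sm.continuous
  have ct := hv.continuous_tt
  have mG : Measurable fun x : EE n => Gk 2 (y - x) := (measurable_Gk 2).comp (by fun_prop)
  have e1 : psi v y = ∫ x, Gk 2 (y - x) * (psi v x ^ 2 * (3 - tt v x)) := by
    rw [← res_eq, ← psi_eq_res hv]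
  have e2 : oR (psi v y) ≤ ∫⁻ x, oR (Gk 2 (y - x) * (psi v x ^ 2 * (3 - tt v x))) := by
    rw [e1, integral_eq_lintegral_of_nonneg_ae (Eventually.of_forall fun x =>
      mul_nonneg (Gk_nonneg _ _) (mul_nonneg (sq_nonneg _) (by linarith [tt_le_one v x])))
      (mG.mul (by fun_prop)).aestronglyMeasurable]
    exact ENNReal.ofReal_toReal_le
  have m2 : Measurable fun x : EE n => ind (L ≤ ‖y - x‖) * oR (3 * Gk 2 (y - x)) :=
    (measurable_ind (measurableSet_le measurable_const (by fun_prop))).mul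
      (mG.const_mul 3).ennreal_ofReal
  have e3 : ∫⁻ x, oR (Gk 2 (y - x) * (psi v x ^ 2 * (3 - tt v x))) ≤
      (∫⁻ x, ind (‖y - x‖ < L) * oR (3 * psi v x ^ 2 * Gk 2 (y - x))) +
        ∫⁻ x, ind (L ≤ ‖y - x‖) * oR (3 * Gk 2 (y - x)) := by
    rw [← lintegral_add_right _ m2]
    refine lintegral_mono fun x => ?_
    have g0 := Gk_nonneg 2 (y - x)
    have p1 : psi v x ^ 2 ≤ 1 := pow_le_one₀ (hψ x).1 (hψ x).2
    have p2 := mul_nonneg g0 (mul_nonneg (sq_nonneg (psi v x)) (hv.tt_nonneg x))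
    rcases lt_or_ge ‖y - x‖ L with h | h
    · rw [ind_of h, one_mul]
      exact le_add_right (ENNReal.ofReal_le_ofReal (by linarith))
    · rw [ind_of h, one_mul]
      exact le_add_left (ENNReal.ofReal_le_ofReal (by nlinarith))
  have e4 := e2.trans (e3.trans (add_le_add le_rfl (hL.trans (ENNReal.ofReal_le_ofReal hη))))
  have e5 : oR (psi v y) = oR ((1 - a) * psi v y) + oR (a * psi v y) := by
    rw [← ENNReal.ofReal_add (mul_nonneg (by linarith) (hψ y).1) (mul_nonneg ha (hψ y).1)]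
    congr 1; ring
  rw [e5] at e4
  exact (ENNReal.add_le_add_iff_right ENNReal.ofReal_ne_top).1 e4

theorem near (n : ℕ) (L : ℝ) : ∃ K : ℝ, 0 ≤ K ∧ ∀ v : EE n → ℝ, Sol v → ∀ x y : EE n,
    ‖y - x‖ < L → ‖nn v y - nn v x‖ ^ 2 ≤ K * tt v y := by
  obtain ⟨K0, hK0, h0⟩ := hk_hsq n
  obtain ⟨C, hC, h1⟩ := hk_har n
  refine ⟨n * (K0 * Real.exp (C * L) * L ^ 2), by positivity, fun v hv x y hxy => ?_⟩
  have hL : 0 < L := (norm_nonneg _).trans_lt hxy
  have ht := hv.tt_nonneg y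
  have key : ∀ i, (pdv i (dd v) y - pdv i (dd v) x) ^ 2 ≤
      K0 * Real.exp (C * L) * L ^ 2 * tt v y := fun i => by
    have b1 : ∀ z ∈ ball y L, ‖fderiv ℝ (pdv i (dd v)) z‖ ≤ √(K0 * Real.exp (C * L) * tt v y) := by
      intro z hz
      refine Real.le_sqrt_of_sq_le ?_
      rw [← norm_grad, ← gsq_eq]
      have c1 : gsq (pdv i (dd v)) z ≤ hsq (dd v) z :=
        Finset.sum_le_sum fun j _ => Finset.single_le_sum
          (f := fun k => pdv j (pdv k (dd v)) z ^ 2) (fun _ _ => sq_nonneg _) (Finset.mem_univ i)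
      have c2 : ‖y - z‖ ≤ L := by rw [← dist_eq_norm, dist_comm]; exact (mem_ball.1 hz).le
      have c3 : tt v z ≤ Real.exp (C * L) * tt v y := (h1 v hv y z).trans (by gcongr)
      calc _ ≤ K0 * tt v z := c1.trans (h0 v hv z)
        _ ≤ K0 * (Real.exp (C * L) * tt v y) := by gcongr
        _ = _ := by ring
    have b2 := (convex_ball y L).norm_image_sub_le_of_norm_fderiv_le
      (fun z _ => (hv.pdv_dd_sm i).differentiable (by simp) z) b1
      (mem_ball.2 (by rwa [dist_comm, dist_eq_norm])) (mem_ball_self hL)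
    rw [Real.norm_eq_abs] at b2
    calc _ = |pdv i (dd v) y - pdv i (dd v) x| ^ 2 := (sq_abs _).symm
      _ ≤ (√(K0 * Real.exp (C * L) * tt v y) * L) ^ 2 := by
        refine pow_le_pow_left₀ (abs_nonneg _) (b2.trans ?_) 2
        gcongr
      _ = _ := by rw [mul_pow, Real.sq_sqrt (by positivity)]; ring
  rw [EuclideanSpace.real_norm_sq_eq]
  calc _ ≤ ∑ _i : Fin n, K0 * Real.exp (C * L) * L ^ 2 * tt v y :=
        Finset.sum_le_sum fun i _ => by simpa [nn, grad_apply] using key i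
    _ = _ := by simp [mul_assoc]

theorem th_ge {ε s a : ℝ} (hε : 0 < ε) (hs : 0 ≤ s) (ha : a ≤ 1) (h : 2 * s ≤ a * ε ^ 2) :
    1 - a ≤ (ε / √(ε ^ 2 + s)) ^ 3 := by
  have h0 : 0 < ε ^ 2 + s := by positivity
  have h1 : 0 < √(ε ^ 2 + s) := Real.sqrt_pos.2 h0
  have h2 : ε / √(ε ^ 2 + s) ≤ 1 :=
    (div_le_one h1).2 (Real.le_sqrt_of_sq_le (by linarith))
  have h3 : 1 - a / 2 ≤ (ε / √(ε ^ 2 + s)) ^ 2 := by
    have a0 : 0 ≤ a := by
      by_contra h4
      nlinarith [mul_pos (neg_pos.2 (not_le.1 h4)) (pow_pos hε 2)]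
    rw [div_pow, Real.sq_sqrt h0.le, le_div_iff₀ h0]
    nlinarith [mul_nonneg a0 hs]
  have h4 : 0 ≤ ε / √(ε ^ 2 + s) := by positivity
  generalize ε / √(ε ^ 2 + s) = t at *
  have h5 : t ^ 4 ≤ t ^ 3 := pow_le_pow_of_le_one h4 h2 (by norm_num)
  have h6 : (1 - a / 2) ^ 2 ≤ (t ^ 2) ^ 2 := pow_le_pow_left₀ (by linarith) h3 2
  nlinarith [sq_nonneg a]

theorem sq_split {a p q : ℝ} (ha : 0 < a) (ha1 : a ≤ 1) {th : ℝ} (h : 1 - a ≤ th) :
    (1 - a) ^ 2 * q ^ 2 ≤ th * p ^ 2 + a⁻¹ * (p - q) ^ 2 := by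
  have h1 : (1 - a) * q ^ 2 ≤ p ^ 2 + a⁻¹ * (p - q) ^ 2 := by
    refine le_of_mul_le_mul_left ?_ ha
    rw [mul_add, ← mul_assoc a a⁻¹, mul_inv_cancel₀ ha.ne', one_mul]
    nlinarith [sq_nonneg (a * p + (1 - a) * (p - q)), mul_nonneg ha.le (sq_nonneg (p - q))]
  have h2 : 0 ≤ a⁻¹ * (p - q) ^ 2 := by positivity
  have h3 := mul_le_mul_of_nonneg_left h1 (sub_nonneg.2 ha1)
  have h4 := mul_le_mul_of_nonneg_right h (sq_nonneg p)
  nlinarith [mul_nonneg ha.le h2]

theorem pf_nonneg {ε s : ℝ} (hε : 0 < ε) (hs : 0 ≤ s) : 0 ≤ pf ε s :=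
  mul_nonneg (by positivity) (sub_nonneg.2 (Real.le_sqrt_of_sq_le (by linarith)))

/-- the use of `PhiStmt` -/
theorem phi_le (hP : PhiStmt n) {v f : EE n → ℝ} (hv : Sol v) (hf : Measurable f) {ε : ℝ}
    (hε : 0 < ε) (T : ℝ) :
    ∫⁻ x, ∫⁻ y, ind (|dd v x| ≤ T) * oR (3 / 2 * psi v x ^ 2 * f x ^ 2) *
      oR (Gk 2 (y - x) * (2 * psi v y * hsq (dd v) y *
        (ε / √(ε ^ 2 + ‖nn v y - nn v x‖ ^ 2)) ^ 3)) ≤
    (∫⁻ x, ∫⁻ y, ind (|dd v x| ≤ T) *
        (kk v x y * oR (9 / 2 * pf ε (‖nn v y - nn v x‖ ^ 2) * f x ^ 2))) +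
      oR (3 * ε) * Tt v f := by
  have cψ := hv.psi_sm.continuous
  have ct := hv.continuous_tt
  have mG : Measurable fun p : EE n × EE n => Gk 2 (p.2 - p.1) :=
    (measurable_Gk 2).comp (by fun_prop)
  have m1 : Measurable fun p : EE n × EE n =>
      oR (3 * ε) * (kk v p.1 p.2 * oR (tt v p.2 * f p.1 ^ 2)) := by
    unfold kk
    fun_prop
  rw [Tt, ← lintegral_const_mul' _ _ ENNReal.ofReal_ne_top]
  simp_rw [← lintegral_const_mul' (oR (3 * ε)) _ ENNReal.ofReal_ne_top]
  rw [← lintegral_add_right _ m1.lintegral_prod_right']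
  refine lintegral_mono fun x => ?_
  have fin : ind (|dd v x| ≤ T) * oR (3 / 2 * psi v x ^ 2 * f x ^ 2) ≠ ⊤ :=
    ENNReal.mul_ne_top (ne_top_of_le_ne_top ENNReal.one_ne_top (ind_le_one _)) ENNReal.ofReal_ne_top
  rw [lintegral_const_mul' _ _ fin]
  refine (mul_le_mul_right (hP v ε x hv hε) _).trans ?_
  rw [← lintegral_const_mul' _ _ fin]
  refine le_trans (lintegral_mono fun y => ?_)
    (lintegral_add_right _ (m1.comp (measurable_prodMk_left (x := x)))).le
  rw [mul_assoc]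
  refine ind_mul_le fun h => ?_
  have g0 := Gk_nonneg 2 (y - x)
  have p0 := pf_nonneg hε (sq_nonneg ‖nn v y - nn v x‖)
  have t0 := hv.tt_nonneg y
  simp only [Function.comp, kk, ind_of h, one_mul]
  rw [← ENNReal.ofReal_mul (by positivity), ← ENNReal.ofReal_mul (by positivity),
    ← ENNReal.ofReal_mul (by positivity), ← ENNReal.ofReal_mul (by positivity),
    ← ENNReal.ofReal_add (by positivity) (by positivity)]
  exact ENNReal.ofReal_le_ofReal (le_of_eq (by ring))

end BG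

open BG

theorem bg (hP : PhiStmt n) : BGStmt n := by
  intro e T0 he he1
  obtain ⟨c0, hc0⟩ : ∃ c0 : ℝ, c0 = (Real.exp T0 ^ 2)⁻¹ := ⟨_, rfl⟩
  have c0pos : 0 < c0 := by rw [hc0]; positivity
  obtain ⟨a, ha⟩ : ∃ a : ℝ, a = e / 3 := ⟨_, rfl⟩
  have a0 : 0 < a := by rw [ha]; positivity
  have a1 : a ≤ 1 := by linarith
  obtain ⟨L, hL, htail⟩ := tail n (mul_pos a0 c0pos)
  obtain ⟨K, hK, hnear⟩ := near n L
  obtain ⟨K0, hK0, hhs⟩ := hk_hsq n
  refine ⟨L, hL, fun ε δ hε hδ => ⟨min (a * ε ^ 2 / (2 * K + 1)) (a * δ * c0 / (3 * K0 + 1)),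
    lt_min (by positivity) (by positivity), fun v f T hv hf hT => ?_⟩⟩
  generalize hτ : min (a * ε ^ 2 / (2 * K + 1)) (a * δ * c0 / (3 * K0 + 1)) = τ
  have τ1 : τ * (2 * K + 1) ≤ a * ε ^ 2 := by
    rw [← le_div_iff₀ (by positivity), ← hτ]; exact min_le_left _ _
  have τ2 : τ * (3 * K0 + 1) ≤ a * δ * c0 := by
    rw [← le_div_iff₀ (by positivity), ← hτ]; exact min_le_right _ _
  have hψ := IsSol.psi_mem hv.isSol
  have cψ := hv.psi_sm.continuous
  have cd := hv.dd_sm.continuous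
  have ct := hv.continuous_tt
  have ch := hv.hsq_sm.continuous
  have cn : Continuous (nn v) := St.continuous_grad (hv.dd_cd 1)
  have mG : Measurable fun p : EE n × EE n => Gk 2 (p.2 - p.1) :=
    (measurable_Gk 2).comp (by fun_prop)
  have m1 : Measurable fun p : EE n × EE n =>
      oR δ * (kk v p.1 p.2 * oR ((f p.1 - f p.2) ^ 2)) := by
    unfold kk
    fun_prop
  have m0 : Measurable fun p : EE n × EE n => ind (|dd v p.1| ≤ T) :=
    measurable_ind (measurableSet_le (by fun_prop) measurable_const)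
  have m2 : Measurable fun p : EE n × EE n =>
      ind (|dd v p.1| ≤ T) * oR (3 / 2 * psi v p.1 ^ 2 * f p.1 ^ 2) *
        oR (Gk 2 (p.2 - p.1) * (2 * psi v p.2 * hsq (dd v) p.2 *
          (ε / √(ε ^ 2 + ‖nn v p.2 - nn v p.1‖ ^ 2)) ^ 3)) := by
    have : Measurable fun p : EE n × EE n => ‖nn v p.2 - nn v p.1‖ := by fun_prop
    fun_prop
  refine le_trans ?_ (add_le_add (phi_le hP hv hf hε T) le_rfl)
  rw [E0, ← lintegral_const_mul' (oR δ) _ ENNReal.ofReal_ne_top]
  simp_rw [← lintegral_const_mul' (oR δ) _ ENNReal.ofReal_ne_top]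
  rw [← lintegral_add_right _ m1.lintegral_prod_right']
  have e1 : ∀ x, (∫⁻ y, ind (|dd v x| ≤ T) * oR (3 / 2 * psi v x ^ 2 * f x ^ 2) *
      oR (Gk 2 (y - x) * (2 * psi v y * hsq (dd v) y *
        (ε / √(ε ^ 2 + ‖nn v y - nn v x‖ ^ 2)) ^ 3))) +
      ∫⁻ y, oR δ * (kk v x y * oR ((f x - f y) ^ 2)) = _ := fun x =>
    (lintegral_add_right _ (m1.comp (measurable_prodMk_left (x := x)))).symm
  simp_rw [e1]
  rw [lintegral_lintegral_swap (m2.add m1).aemeasurable,
    ← lintegral_const_mul' _ _ ENNReal.ofReal_ne_top]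
  have mB : MeasurableSet {x | |dd v x| ≤ T0 ∧ tt v x ≤ τ} :=
    ((isClosed_le cd.abs continuous_const).inter (isClosed_le ct continuous_const)).measurableSet
  refine le_trans (setLIntegral_mono' mB ?_) (setLIntegral_le_lintegral _ _)
  rintro y ⟨hy1, hy2⟩
  have p0 : c0 ≤ psi v y := hc0 ▸ psi_ge hv hy1
  have h0 := hsq_nonneg (dd v) y
  have t0 := hv.tt_nonneg y
  have ψ0 := (hψ y).1
  have b0 : 0 ≤ (1 - a) ^ 2 * psi v y * hsq (dd v) y * f y ^ 2 := by positivity
  have b1 := mass hv a0.le a1 (htail y) (mul_le_mul_of_nonneg_left p0 a0.le)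
  have b2 : oR (1 - e) * oR (psi v y ^ 2 * hsq (dd v) y * f y ^ 2) ≤
      oR ((1 - a) ^ 2 * psi v y * hsq (dd v) y * f y ^ 2) * oR ((1 - a) * psi v y) := by
    rw [← ENNReal.ofReal_mul (by linarith), ← ENNReal.ofReal_mul b0]
    refine ENNReal.ofReal_le_ofReal ?_
    have c1 : 1 - e ≤ (1 - a) ^ 3 := by nlinarith [mul_nonneg (sq_nonneg a) (sub_nonneg.2 a1)]
    calc _ ≤ (1 - a) ^ 3 * (psi v y ^ 2 * hsq (dd v) y * f y ^ 2) := by gcongr
      _ = _ := by ring
  refine b2.trans ((mul_le_mul_right b1 _).trans ?_)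
  rw [← lintegral_const_mul' _ _ ENNReal.ofReal_ne_top]
  refine lintegral_mono fun x => ?_
  rw [mul_left_comm]
  refine ind_mul_le fun hxy => ?_
  have hx : |dd v x| ≤ T := by
    have c1 := hv.abs_dd_sub_le y x
    have c2 := abs_sub_abs_le_abs_sub (dd v x) (dd v y)
    rw [abs_sub_comm] at c2
    linarith
  have g0 := Gk_nonneg 2 (y - x)
  have d1 := th_ge (a := a) hε (sq_nonneg ‖nn v y - nn v x‖) a1 (by
    have := hnear v hv x y hxy
    nlinarith [mul_le_mul_of_nonneg_left hy2 hK])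
  have d2 := sq_split (p := f x) (q := f y) a0 a1 d1
  have d3 : a⁻¹ * (3 * hsq (dd v) y) ≤ δ * psi v y := by
    rw [inv_mul_le_iff₀ a0]
    have := hhs v hv y
    nlinarith [mul_le_mul_of_nonneg_left hy2 hK0, mul_le_mul_of_nonneg_left p0 (mul_pos a0 hδ).le]
  have d4 : 0 ≤ (ε / √(ε ^ 2 + ‖nn v y - nn v x‖ ^ 2)) ^ 3 := by positivity
  simp only [Function.comp, kk, ind_of hx, one_mul]
  generalize (ε / √(ε ^ 2 + ‖nn v y - nn v x‖ ^ 2)) ^ 3 = th at d2 d4 ⊢
  rw [← ENNReal.ofReal_mul b0, ← ENNReal.ofReal_mul (by positivity),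
    ← ENNReal.ofReal_mul (by positivity), ← ENNReal.ofReal_mul hδ.le,
    ← ENNReal.ofReal_add (by positivity) (by positivity)]
  refine ENNReal.ofReal_le_ofReal ?_
  have d5 := mul_le_mul_of_nonneg_left d2
    (show 0 ≤ 3 * psi v x ^ 2 * Gk 2 (y - x) * psi v y * hsq (dd v) y by positivity)
  have d6 := mul_le_mul_of_nonneg_left d3
    (show 0 ≤ psi v x ^ 2 * Gk 2 (y - x) * psi v y * (f x - f y) ^ 2 by positivity)
  linarith

end Crest.Agent.N067.S
end

-- ▼ part N067/S/Deep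
section

/-!
# Row 67, block STAB: extension of the test function to the deep points (helper43)
-/

set_option autoImplicit false

open MeasureTheory Topology Filter Set Metric
open scoped ENNReal

namespace Crest.Agent.N067.S

open Crest.Agent.R077 Crest.Agent.N067.Ker

noncomputable section

namespace Dp

variable {n : ℕ} {v z : EE n → ℝ} {A : ℝ}

theorem int_exp {a : ℝ} (ha : 0 < a) : Integrable fun w : EE n => Real.exp (-(a * ‖w‖)) := by
  have h : Integrable fun z : EE n => Real.exp (-‖z‖) := by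
    refine ((integrable_one_add_norm (E := EE n) (μ := volume) (r := ((n + 1 : ℕ) : ℝ))
      (by simp)).const_mul (((n + 1).factorial : ℝ) * Real.exp 1)).mono' (by fun_prop)
      (Eventually.of_forall fun z => ?_)
    have h1 := Real.pow_div_factorial_le_exp (1 + ‖z‖) (by positivity) (n + 1)
    rw [Real.norm_of_nonneg (Real.exp_pos _).le, Real.rpow_neg (by positivity), Real.rpow_natCast,
      Real.exp_neg, ← div_eq_mul_inv, le_div_iff₀ (by positivity), inv_mul_le_iff₀ (Real.exp_pos _)]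
    rw [div_le_iff₀ (by positivity), Real.exp_add] at h1
    linarith
  simpa only [norm_smul, Real.norm_of_nonneg ha.le] using h.comp_smul ha.ne'

theorem exp_le_G (hn : 4 ≤ n) : ∃ C : ℝ, 0 < C ∧ ∀ w : EE n, w ≠ 0 →
    Real.exp (-(8 / 5 * ‖w‖)) ≤ C * Gk 2 w := by
  obtain ⟨c, hc, h⟩ := Gk_bounds hn two_pos
  set K : ℝ := 10 ^ (n - 2) * (n - 2).factorial with hK
  have K1 : 1 ≤ K := one_le_mul_of_one_le_of_one_le (one_le_pow₀ (by norm_num))
    (by exact_mod_cast Nat.factorial_pos _)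
  refine ⟨K / c, by positivity, fun w hw => ?_⟩
  have r0 := norm_pos_iff.2 hw
  have e1 : Real.exp (-(8 / 5 * ‖w‖)) * Real.exp (‖w‖ / 10) ≤ Real.exp (-√2 * ‖w‖) := by
    rw [← Real.exp_add]
    exact Real.exp_le_exp.2 (by nlinarith [sqrt2_le])
  have e0 := Real.exp_pos (-(8 / 5 * ‖w‖))
  rw [div_mul_eq_mul_div K, le_div_iff₀ hc]
  rcases le_total 1 ‖w‖ with h1 | h1
  · have a1 := ((h w).1 h1).1
    have a2 := Real.pow_div_factorial_le_exp (‖w‖ / 10) (by positivity) (n - 2)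
    rw [div_pow, div_div, div_le_iff₀ (by positivity), ← hK] at a2
    have a3 : 1 ≤ K * Real.exp (‖w‖ / 10) * (‖w‖ ^ (n - 2))⁻¹ := by
      rw [← div_eq_mul_inv, le_div_iff₀ (by positivity)]; linarith
    calc _ ≤ Real.exp (-(8 / 5 * ‖w‖)) * c * (K * Real.exp (‖w‖ / 10) * (‖w‖ ^ (n - 2))⁻¹) :=
          le_mul_of_one_le_right (by positivity) a3
      _ = K * (c * (‖w‖ ^ (n - 2))⁻¹ * (Real.exp (-(8 / 5 * ‖w‖)) * Real.exp (‖w‖ / 10))) := by
          ring
      _ ≤ K * (c * (‖w‖ ^ (n - 2))⁻¹ * Real.exp (-√2 * ‖w‖)) := by gcongr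
      _ ≤ _ := by gcongr
  · have a1 := ((h w).2 hw h1).1
    have a2 : Real.exp (-(8 / 5 * ‖w‖)) ≤ Real.exp (-√2 * ‖w‖) :=
      (le_mul_of_one_le_right e0.le (Real.one_le_exp (by positivity))).trans e1
    calc _ ≤ c * Real.exp (-√2 * ‖w‖) := by rw [mul_comm]; gcongr
      _ ≤ _ := a1.trans (le_mul_of_one_le_left (Gk_nonneg 2 w) K1)

/-- the weight -/
def kE (w : EE n) : ℝ := Real.exp (-(9 / 5 * ‖w‖))

theorem kE_pos (w : EE n) : 0 < kE w := Real.exp_pos _

theorem kE_int : Integrable (kE : EE n → ℝ) := int_exp (by norm_num)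

theorem kE_cont : Continuous (kE : EE n → ℝ) := by unfold kE; fun_prop

/-- `G * kE ≤ C G` -/
theorem ker (hn : 4 ≤ n) : ∃ C : ℝ, 0 < C ∧ ∀ x m : EE n, m ≠ x →
    ∫⁻ y, oR (Gk 2 (y - x) * kE (m - y)) ≤ oR (C * Gk 2 (m - x)) := by
  obtain ⟨C, hC, h⟩ := exp_le_G hn
  have i1 := int_exp (n := n) (a := 3 / 10) (by norm_num)
  have i2 := integrable_Gk_exp (n := n) (μ := 2) (a := 7 / 5) two_pos (by norm_num)
  set I1 := ∫ w : EE n, Real.exp (-(3 / 10 * ‖w‖)) with hI1
  set I2 := ∫ w : EE n, Gk 2 w * Real.exp (7 / 5 * ‖w‖) with hI2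
  have p1 : 0 ≤ I1 := integral_nonneg fun _ => (Real.exp_pos _).le
  have p2 : 0 ≤ I2 := integral_nonneg fun w => mul_nonneg (Gk_nonneg 2 w) (Real.exp_pos _).le
  refine ⟨2 ^ (n - 2) * I1 + C * I2 + 1, by positivity, fun x m hm => ?_⟩
  have hG := Gk_nonneg 2 (m - x)
  have j1 := (i1.comp_sub_left m).const_mul (2 ^ (n - 2))
  have j2 := (i2.comp_sub_right x).const_mul C
  have q : ∀ y, 0 ≤ 2 ^ (n - 2) * Real.exp (-(3 / 10 * ‖m - y‖)) * Gk 2 (m - x) ∧
      0 ≤ C * (Gk 2 (y - x) * Real.exp (7 / 5 * ‖y - x‖)) * Gk 2 (m - x) := fun y => by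
    have := Gk_nonneg 2 (y - x)
    constructor <;> positivity
  refine le_trans (lintegral_mono (g := fun y => oR ((2 ^ (n - 2) * Real.exp (-(3 / 10 * ‖m - y‖)) +
    C * (Gk 2 (y - x) * Real.exp (7 / 5 * ‖y - x‖))) * Gk 2 (m - x))) fun y =>
      ENNReal.ofReal_le_ofReal ?_) ?_
  · have t1 : ‖m - x‖ - ‖m - y‖ ≤ ‖y - x‖ := by
      linarith [norm_sub_le_norm_sub_add_norm_sub m y x]
    have g0 := Gk_nonneg 2 (y - x)
    rw [add_mul]
    rcases le_total ‖m - x‖ (2 * ‖y - x‖) with h1 | h1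
    · refine le_add_of_le_of_nonneg ?_ (q y).2
      have a1 := Gk_le_far hn (sub_ne_zero.2 hm) (norm_nonneg (m - y)) t1 h1
      have a2 : Real.exp (√2 * ‖m - y‖) * kE (m - y) ≤ Real.exp (-(3 / 10 * ‖m - y‖)) := by
        rw [kE, ← Real.exp_add]
        exact Real.exp_le_exp.2 (by nlinarith [sqrt2_le, norm_nonneg (m - y)])
      calc _ ≤ 2 ^ (n - 2) * Real.exp (√2 * ‖m - y‖) * Gk 2 (m - x) * kE (m - y) :=
            mul_le_mul_of_nonneg_right a1 (kE_pos _).le
        _ = 2 ^ (n - 2) * (Real.exp (√2 * ‖m - y‖) * kE (m - y)) * Gk 2 (m - x) := by ring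
        _ ≤ _ := by gcongr
    · refine le_add_of_nonneg_of_le (q y).1 ?_
      have a2 : kE (m - y) ≤ Real.exp (7 / 5 * ‖y - x‖) * Real.exp (-(8 / 5 * ‖m - x‖)) := by
        rw [kE, ← Real.exp_add]
        exact Real.exp_le_exp.2 (by linarith)
      calc _ ≤ Gk 2 (y - x) * (Real.exp (7 / 5 * ‖y - x‖) * (C * Gk 2 (m - x))) :=
            mul_le_mul_of_nonneg_left (a2.trans (mul_le_mul_of_nonneg_left
              (h _ (sub_ne_zero.2 hm)) (Real.exp_pos _).le)) g0
        _ = _ := by ring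
  · have j3 : Integrable fun y => (2 ^ (n - 2) * Real.exp (-(3 / 10 * ‖m - y‖)) +
        C * (Gk 2 (y - x) * Real.exp (7 / 5 * ‖y - x‖))) * Gk 2 (m - x) :=
      (j1.add j2).mul_const _
    rw [← ofReal_integral_eq_lintegral_ofReal j3 (Eventually.of_forall fun y => by
        have := add_nonneg (q y).1 (q y).2
        rwa [← add_mul] at this), integral_mul_const]
    refine ENNReal.ofReal_le_ofReal (mul_le_mul_of_nonneg_right ?_ hG)
    rw [integral_add j1 j2, integral_const_mul, integral_const_mul,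
      integral_sub_left_eq_self (fun w : EE n => Real.exp (-(3 / 10 * ‖w‖))) volume m,
      integral_sub_right_eq_self (fun w : EE n => Gk 2 w * Real.exp (7 / 5 * ‖w‖)) x]
    linarith

/-- the density on the middle band -/
def bw (v : EE n → ℝ) (m : EE n) : ℝ := if |dd v m| ≤ 1 then psi v m ^ 2 else 0

theorem bw_nonneg (m : EE n) : 0 ≤ bw v m := by unfold bw; split_ifs <;> positivity


theorem psi2_le (hv : Sol v) (m : EE n) : psi v m ^ 2 ≤ 1 :=
  pow_le_one₀ (hv.psi_pos m).le (psi_le_one v m)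

theorem band_meas (hv : Sol v) (T : ℝ) : MeasurableSet {x | |dd v x| ≤ T} :=
  (isClosed_le hv.dd_sm.continuous.abs continuous_const).measurableSet

theorem bw_meas (hv : Sol v) : Measurable (bw v) :=
  Measurable.ite (band_meas hv 1) (hv.psi_sm.continuous.measurable.pow_const 2) measurable_const

/-- weighted integrals -/
def Nw (v z : EE n → ℝ) (y : EE n) : ℝ := ∫ m, kE (m - y) * (bw v m * z m)

theorem Nw_meas (hv : Sol v) (hz : Measurable z) : Measurable (Nw v z) := by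
  have h : Measurable fun p : EE n × EE n => kE (p.2 - p.1) * (bw v p.2 * z p.2) :=
    (kE_cont.measurable.comp (measurable_snd.sub measurable_fst)).mul
      (((bw_meas hv).mul hz).comp measurable_snd)
  exact h.stronglyMeasurable.integral_prod_right'.measurable

theorem int_w (hv : Sol v) (hz : Measurable z) (hb : ∀ m, |dd v m| ≤ 1 → |z m| ≤ A) (y : EE n) :
    Integrable fun m => kE (m - y) * (bw v m * z m) := by
  refine (kE_int.comp_sub_right y).mul_bdd (c := |A|) ((bw_meas hv).mul hz).aestronglyMeasurable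
    (Eventually.of_forall fun m => ?_)
  unfold bw
  split_ifs with h
  · rw [Real.norm_eq_abs, abs_mul, abs_of_nonneg (sq_nonneg _)]
    exact (mul_le_of_le_one_left (abs_nonneg _) (psi2_le hv m)).trans
      ((hb m h).trans (le_abs_self A))
  · simp

theorem int_1 (hv : Sol v) (c : ℝ) (y : EE n) : Integrable fun m => kE (m - y) * (bw v m * c) :=
  int_w hv measurable_const (fun _ _ => le_rfl) y

/-- the total weight is large compared with `ψ²` at the deep points -/
theorem W_low (n : ℕ) : ∃ C : ℝ, 0 < C ∧ ∀ v : EE n → ℝ, Sol v → ∀ (T : ℝ) (y : EE n),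
    T < |dd v y| → psi v y ^ 2 ≤ C * Real.exp (-(T / 5)) * Nw v (fun _ => 1) y := by
  obtain ⟨C, hC, h⟩ := PsiM.psi_le n
  set V := volume.real (ball (0 : EE n) 1) with hV
  have V0 : 0 < V := ENNReal.toReal_pos (measure_ball_pos _ _ one_pos).ne' measure_ball_lt_top.ne
  refine ⟨C ^ 2 * Real.exp 5 / V, by positivity, fun v hv T y hT => ?_⟩
  have hZ : IsClosed {y | v y = 0} := isClosed_eq hv.sm.continuous continuous_const
  obtain ⟨m0, hm, hd⟩ := hZ.exists_infDist_eq_dist (PsiM.zero_ex hv) y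
  have hm : v m0 = 0 := hm
  have h1 : psi v y ≤ C * Real.exp (-dist y m0) := h v hv y _ fun w hw h0 =>
    notMem_of_dist_lt_infDist (s := {y | v y = 0}) (by rw [hd]; exact mem_ball'.1 hw) h0
  have h2 : T < dist y m0 := by
    have := hv.abs_dd_sub_le y m0
    rw [show dd v m0 = 0 by simp [dd, hm], sub_zero, ← dist_eq_norm] at this
    linarith
  set D := dist y m0 with hD
  have h3 : Real.exp (-(9 / 5 * D) - 5) * V ≤ Nw v (fun _ => 1) y := by
    have a1 : V = volume.real (ball m0 1) := by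
      rw [hV, measureReal_def, measureReal_def, Measure.addHaar_ball_center volume m0]
    rw [a1]
    refine le_trans (setIntegral_ge_of_const_le_real measurableSet_ball measure_ball_lt_top.ne
      (fun m hm' => ?_) (int_1 hv 1 y).integrableOn) (setIntegral_le_integral (int_1 hv 1 y)
        (Eventually.of_forall fun m => mul_nonneg (kE_pos _).le (by simpa using bw_nonneg m)))
    have b0 := mem_ball.1 hm'
    have b1 : |dd v m| ≤ 1 := PsiM.ball_sub hv hm hm'
    have b2 := hv.psi_le m0 m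
    rw [show psi v m0 = 1 by simp [psi, hm], dist_comm] at b2
    have b3 : Real.exp (-(3 / 2)) ≤ psi v m := by
      rw [Real.exp_neg, inv_le_iff_one_le_mul₀' (Real.exp_pos _)]
      refine b2.trans (mul_le_mul_of_nonneg_right (Real.exp_le_exp.2 ?_) (hv.psi_pos m).le)
      nlinarith [sqrt2_le, sqrt2_pos, dist_nonneg (x := m) (y := m0)]
    have b4 : ‖m - y‖ ≤ 1 + D := by
      rw [← dist_eq_norm, hD, dist_comm y]
      linarith [dist_triangle m m0 y]
    rw [bw, if_pos b1, mul_one]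
    refine le_trans ?_ (mul_le_mul_of_nonneg_left
      (pow_le_pow_left₀ (Real.exp_pos _).le b3 2) (kE_pos _).le)
    rw [kE, ← Real.exp_nat_mul, ← Real.exp_add]
    exact Real.exp_le_exp.2 (by push_cast; linarith)
  calc _ ≤ (C * Real.exp (-D)) ^ 2 := pow_le_pow_left₀ (hv.psi_pos y).le h1 2
    _ ≤ C ^ 2 * (Real.exp 5 * Real.exp (-(T / 5)) * Real.exp (-(9 / 5 * D) - 5)) := by
      rw [mul_pow, ← Real.exp_nat_mul, ← Real.exp_add, ← Real.exp_add]
      exact mul_le_mul_of_nonneg_left (Real.exp_le_exp.2 (by push_cast; linarith)) (sq_nonneg C)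
    _ = C ^ 2 * Real.exp 5 / V * Real.exp (-(T / 5)) * (Real.exp (-(9 / 5 * D) - 5) * V) := by
      field_simp
    _ ≤ _ := by gcongr

/-- Jensen -/
theorem jensen (hv : Sol v) (hz : Measurable z) (hb : ∀ m, |dd v m| ≤ 1 → |z m| ≤ A) {y : EE n}
    (hW : 0 < Nw v (fun _ => 1) y) (c : ℝ) :
    oR (Nw v (fun _ => 1) y * (c - Nw v z y / Nw v (fun _ => 1) y) ^ 2) ≤
      ∫⁻ m, oR (kE (m - y) * (bw v m * (c - z m) ^ 2)) := by
  set W := Nw v (fun _ => 1) y with hWd
  set a := Nw v z y / W with ha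
  have i1 := int_w hv hz hb y
  have i2 := int_w (A := (|c| + A) ^ 2) (z := fun m => (c - z m) ^ 2) hv
    ((hz.const_sub c).pow_const 2) (fun m hm => by
    rw [abs_pow]
    exact pow_le_pow_left₀ (abs_nonneg _) ((abs_sub _ _).trans (add_le_add_right (hb m hm) _)) 2) y
  rw [← ofReal_integral_eq_lintegral_ofReal i2 (Eventually.of_forall fun m =>
    mul_nonneg (kE_pos _).le (mul_nonneg (bw_nonneg m) (sq_nonneg _)))]
  refine ENNReal.ofReal_le_ofReal (le_trans (le_of_eq ?_) (integral_mono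
    (((int_1 hv 1 y).const_mul ((c - a) ^ 2 + 2 * (c - a) * a)).sub (i1.const_mul (2 * (c - a))))
    i2 fun m => ?_))
  · rw [integral_sub' ((int_1 hv 1 y).const_mul _) (i1.const_mul _), integral_const_mul,
      integral_const_mul]
    change _ = _ * W - _ * Nw v z y
    rw [show Nw v z y = a * W by rw [ha]; field_simp]
    ring
  · have := mul_nonneg (mul_nonneg (kE_pos (m - y)).le (bw_nonneg (v := v) m)) (sq_nonneg (a - z m))
    simp only [Pi.sub_apply]
    nlinarith

end Dp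

open Dp in
theorem deep {n : ℕ} (hn : 4 ≤ n) : DeepStmt n := by
  intro δ hδ
  obtain ⟨C, hC, hW⟩ := W_low n
  obtain ⟨K, hK, hker⟩ := ker hn
  refine ⟨max 1 (5 * (C * K / δ)), le_max_left _ _, fun T A v z hT hv hz hb hi => ?_⟩
  have T1 : 1 ≤ T := (le_max_left _ _).trans hT
  set η := C * Real.exp (-(T / 5)) with hη
  have η0 : 0 < η := by positivity
  have ηK : η * K ≤ δ := by
    have a1 : C * K / δ ≤ Real.exp (T / 5) := by
      linarith [Real.add_one_le_exp (T / 5), (le_max_right _ _).trans hT]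
    rw [div_le_iff₀ hδ] at a1
    rw [hη, Real.exp_neg, mul_right_comm, ← div_eq_mul_inv, div_le_iff₀ (Real.exp_pos _)]
    linarith
  have hb1 : ∀ m, |dd v m| ≤ 1 → |z m| ≤ A := fun m hm => by
    rw [abs_of_nonneg (hb m (hm.trans T1)).1]; exact (hb m (hm.trans T1)).2
  have W0 : ∀ y, T < |dd v y| → 0 < Nw v (fun _ => 1) y := fun y hy =>
    (mul_pos_iff_of_pos_left η0).1 ((pow_pos (hv.psi_pos y) 2).trans_le (hW v hv T y hy))
  have bz : ∀ m, 0 ≤ bw v m * z m ∧ bw v m * z m ≤ A * (bw v m * 1) := fun m => by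
    unfold bw
    split_ifs with h
    · have := hb m (h.trans T1)
      exact ⟨mul_nonneg (sq_nonneg _) this.1, by nlinarith [sq_nonneg (psi v m), this.2]⟩
    · simp
  have N0 : ∀ y, 0 ≤ Nw v z y := fun y =>
    integral_nonneg fun m => mul_nonneg (kE_pos _).le (bz m).1
  set f : EE n → ℝ := fun y => if |dd v y| ≤ T then z y else Nw v z y / Nw v (fun _ => 1) y
    with hf
  have f1 : ∀ y, |dd v y| ≤ T → f y = z y := fun y hy => if_pos hy
  have f2 : ∀ y, T < |dd v y| → f y = Nw v z y / Nw v (fun _ => 1) y := fun y hy => if_neg hy.not_ge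
  have fm : Measurable f :=
    Measurable.ite (band_meas hv T) hz ((Nw_meas hv hz).div (Nw_meas hv measurable_const))
  have f0 : ∀ y, 0 ≤ f y := fun y => by
    rcases le_or_gt |dd v y| T with h | h
    · rw [f1 y h]; exact (hb y h).1
    · rw [f2 y h]; exact div_nonneg (N0 y) (W0 y h).le
  have pm : Measurable (psi v) := hv.psi_sm.continuous.measurable
  refine ⟨f, ⟨fm, f0, fun y => ?_, ?_⟩, f1, ?_⟩
  · rcases le_or_gt |dd v y| T with h | h
    · rw [f1 y h]; exact (hb y h).2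
    · rw [f2 y h, div_le_iff₀ (W0 y h), Nw, Nw, ← integral_const_mul]
      refine integral_mono (int_w hv hz hb1 y) ((int_1 hv 1 y).const_mul A) fun m => ?_
      have := mul_le_mul_of_nonneg_left (bz m).2 (kE_pos (m - y)).le
      linarith
  · have i1 := (integrable_indicator_iff (band_meas hv T)).2 hi
    have i2 : Integrable fun m => bw v m * z m := by
      refine i1.mono' ((bw_meas hv).mul hz).aestronglyMeasurable (Eventually.of_forall fun m => ?_)
      rw [Real.norm_of_nonneg (bz m).1, bw]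
      split_ifs with h
      · rw [indicator_of_mem (show m ∈ {x | |dd v x| ≤ T} from h.trans T1)]
        exact mul_le_of_le_one_left (hb m (h.trans T1)).1 (psi2_le hv m)
      · rw [zero_mul]
        exact indicator_nonneg (fun x hx => (hb x hx).1) m
    have i3 : Integrable (Nw v z) :=
      (integrable_cv_int kE_int i2).congr (Eventually.of_forall fun y => cv_eq _ _ y)
    refine (i1.add (i3.const_mul η)).mono' ((pm.pow_const 2).mul fm).aestronglyMeasurable
      (Eventually.of_forall fun y => ?_)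
    rw [Real.norm_of_nonneg (mul_nonneg (sq_nonneg _) (f0 y)), Pi.add_apply]
    rcases le_or_gt |dd v y| T with h | h
    · rw [f1 y h, indicator_of_mem (show y ∈ {x | |dd v x| ≤ T} from h)]
      exact le_add_of_le_of_nonneg (mul_le_of_le_one_left (hb y h).1 (psi2_le hv y))
        (mul_nonneg η0.le (N0 y))
    · rw [indicator_of_notMem (show y ∉ {x | |dd v x| ≤ T} from h.not_ge), zero_add]
      refine (mul_le_mul_of_nonneg_right (hW v hv T y h) (f0 y)).trans_eq ?_
      rw [f2 y h, mul_assoc, mul_div_cancel₀ _ (W0 y h).ne']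
  · rw [Ec, E0, ← lintegral_const_mul' _ _ ENNReal.ofReal_ne_top]
    refine lintegral_mono fun x => ?_
    have key : ∀ y, ind (T < |dd v y|) * (kk v x y * oR ((f x - f y) ^ 2)) ≤
        ∫⁻ m, oR (η * psi v x ^ 2 * psi v m ^ 2 * (f x - f m) ^ 2) *
          oR (Gk 2 (y - x) * kE (m - y)) := fun y => ind_mul_le fun hy => by
      have g0 := Gk_nonneg 2 (y - x)
      calc _ ≤ oR (η * psi v x ^ 2 * Gk 2 (y - x)) * oR (Nw v (fun _ => 1) y *
              (f x - Nw v z y / Nw v (fun _ => 1) y) ^ 2) := by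
            rw [kk, ← ENNReal.ofReal_mul (by positivity), ← ENNReal.ofReal_mul (by positivity),
              ← f2 y hy]
            refine ENNReal.ofReal_le_ofReal ?_
            have := mul_le_mul_of_nonneg_left (hW v hv T y hy)
              (show 0 ≤ psi v x ^ 2 * Gk 2 (y - x) * (f x - f y) ^ 2 by positivity)
            linarith
        _ ≤ oR (η * psi v x ^ 2 * Gk 2 (y - x)) *
              ∫⁻ m, oR (kE (m - y) * (bw v m * (f x - z m) ^ 2)) :=
            mul_le_mul_right (jensen hv hz hb1 (W0 y hy) _) _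
        _ ≤ _ := by
            rw [← lintegral_const_mul' _ _ ENNReal.ofReal_ne_top]
            refine lintegral_mono fun m => ?_
            have k0 := kE_pos (m - y)
            rw [← ENNReal.ofReal_mul (by positivity), ← ENNReal.ofReal_mul (by positivity)]
            refine ENNReal.ofReal_le_ofReal ?_
            unfold bw
            split_ifs with h
            · rw [f1 m (h.trans T1)]; exact le_of_eq (by ring)
            · rw [zero_mul, mul_zero, mul_zero]; positivity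
    have m1 : Measurable fun p : EE n × EE n => oR (Gk 2 (p.1 - x) * kE (p.2 - p.1)) :=
      (((measurable_Gk 2).comp (measurable_fst.sub_const x)).mul
        (kE_cont.measurable.comp (measurable_snd.sub measurable_fst))).ennreal_ofReal
    have m2 : Measurable fun m => oR (η * psi v x ^ 2 * psi v m ^ 2 * (f x - f m) ^ 2) :=
      (((pm.pow_const 2).const_mul _).mul ((fm.const_sub _).pow_const 2)).ennreal_ofReal
    refine (lintegral_mono key).trans ?_
    rw [lintegral_lintegral_swap ((m2.comp measurable_snd).mul m1).aemeasurable,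
      ← lintegral_const_mul' _ _ ENNReal.ofReal_ne_top]
    refine lintegral_mono fun m => ?_
    rw [lintegral_const_mul' _ _ ENNReal.ofReal_ne_top]
    rcases eq_or_ne m x with rfl | hm
    · simp
    have g0 := Gk_nonneg 2 (m - x)
    refine (mul_le_mul_right (hker x m hm) _).trans ?_
    rw [kk, ← ENNReal.ofReal_mul (by positivity), ← ENNReal.ofReal_mul (by positivity),
      ← ENNReal.ofReal_mul hδ.le]
    refine ENNReal.ofReal_le_ofReal ?_
    have := mul_le_mul_of_nonneg_right ηK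
      (show 0 ≤ psi v x ^ 2 * Gk 2 (m - x) * psi v m ^ 2 * (f x - f m) ^ 2 by positivity)
    linarith

end

end Crest.Agent.N067.S
end

-- ▼ part N067/S/Far
section

/-!
# Row 67, block STAB (helper62): the leaf FAR, far pairs of the band which are not opposite
-/

set_option autoImplicit false

open MeasureTheory Laplacian InnerProductSpace Topology Filter Set Metric
open scoped RealInnerProductSpace ContDiff Gradient ENNReal NNReal

namespace Crest.Agent.N067.S

open Crest.Agent.R077 Crest.Agent.N067.Ker Crest.Agent.N067.M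

noncomputable section

variable {n : ℕ}

namespace Fr

theorem rpow_le {K D : ℝ} (hK : 1 ≤ K) (hD : 0 ≤ D) :
    (1 + D) ^ K ≤ (4 * K) ^ K * Real.exp (D / 4) := by
  have h1 : 1 + D ≤ 4 * K * Real.exp (D / (4 * K)) := by
    have h := Real.add_one_le_exp (D / (4 * K))
    have e : 4 * K * (D / (4 * K) + 1) = D + 4 * K := by field_simp
    nlinarith
  refine (Real.rpow_le_rpow (by linarith) h1 (by linarith)).trans (le_of_eq ?_)
  rw [Real.mul_rpow (by linarith) (Real.exp_pos _).le, ← Real.exp_mul]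
  congr 2
  field_simp

/-- a pair with a point which is not flat is paid by `t f²` at this point -/
theorem paid {v f : EE n → ℝ} {K T C : ℝ} (hv : Sol v) (hK : 1 ≤ K) (hC : 1 ≤ C)
    (hf : ∀ x, 0 ≤ f x) (hc : Cmp v f K T) {x y : EE n} (hx : |dd v x| ≤ T) (hy : |dd v y| ≤ T)
    {D : ℝ} (hD : 0 < D) (e : ‖y - x‖ = D) (hF : ¬ Flat v (10 * (K + C) / D) x)
    (ht : Real.exp (-(C / (10 * (K + C) / D)) - C) ≤ tt v x) :
    (f x - f y) ^ 2 ≤ (K * (4 * K) ^ K) ^ 2 * Real.exp C * Real.exp (7 / 10 * D) *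
      (tt v x * f x ^ 2) := by
  have k0 : 0 < 10 * (K + C) / D := by positivity
  rw [flat_iff hv k0.le, not_le] at hF
  have h1 : K / ph0 v x ≤ D / 20 := by
    rw [div_le_iff₀ (by linarith)]
    have e1 : D / 20 * (2 * (10 * (K + C) / D)) = K + C := by field_simp; ring
    nlinarith
  have h2 : Real.exp (-(D / 10) - C) ≤ tt v x := by
    refine le_trans (Real.exp_le_exp.2 ?_) ht
    have : C / (10 * (K + C) / D) ≤ D / 10 := by
      rw [div_le_iff₀ k0]
      have e1 : D / 10 * (10 * (K + C) / D) = K + C := by field_simp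
      linarith
    linarith
  have h3 := hc y x hy hx
  rw [e] at h3
  have a1 : 1 ≤ (4 * K) ^ K := Real.one_le_rpow (by linarith) (by linarith)
  set A := K * (4 * K) ^ K * Real.exp (3 / 10 * D) with hA
  have h4 : K * Real.exp (K / ph0 v x) * (1 + D) ^ K ≤ A := by
    have := Real.exp_le_exp.2 h1
    have := rpow_le hK hD.le
    calc _ ≤ K * Real.exp (D / 20) * ((4 * K) ^ K * Real.exp (D / 4)) := by gcongr
      _ = K * (4 * K) ^ K * (Real.exp (D / 20) * Real.exp (D / 4)) := by ring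
      _ = A := by rw [← Real.exp_add, hA]; congr 2; ring
  have a2 : 1 ≤ A := one_le_mul_of_one_le_of_one_le (one_le_mul_of_one_le_of_one_le hK a1)
    (Real.one_le_exp (by positivity))
  have h5 : f y ≤ A * f x := h3.trans (mul_le_mul_of_nonneg_right h4 (hf x))
  have h6 : f x ≤ A * f x := le_mul_of_one_le_left (hf x) a2
  have h7 : (f x - f y) ^ 2 ≤ (A * f x) ^ 2 :=
    sq_le_sq' (by linarith [hf x]) (by linarith [hf y])
  have h8 : A ^ 2 = (K * (4 * K) ^ K) ^ 2 * Real.exp C * Real.exp (7 / 10 * D) *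
      Real.exp (-(D / 10) - C) := by
    rw [hA, mul_pow, sq (Real.exp _), mul_assoc, mul_assoc, ← Real.exp_add, ← Real.exp_add,
      ← Real.exp_add]
    congr 2
    ring
  refine h7.trans ?_
  rw [mul_pow, h8, mul_assoc _ (Real.exp (-(D / 10) - C))]
  gcongr

theorem kk_le {v : EE n → ℝ} (hv : Sol v) (x y : EE n) : kk v x y ≤ oR (Gk 2 (y - x)) := by
  refine ENNReal.ofReal_le_ofReal ?_
  have h : ∀ z, psi v z ^ 2 ≤ 1 := fun z => pow_le_one₀ (hv.psi_pos z).le (psi_le_one v z)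
  have := Gk_nonneg 2 (y - x)
  calc _ ≤ 1 * Gk 2 (y - x) * 1 := by gcongr <;> exact h _
    _ = _ := by ring

/-- a convolution majorant -/
theorem lint_conv {W a : EE n → ℝ≥0∞} (hW : Measurable W) (ha : Measurable a) :
    ∫⁻ x, ∫⁻ y, W (y - x) * (a x + a y) = 2 * (∫⁻ p, W p) * ∫⁻ x, a x := by
  have e1 : ∀ x, ∫⁻ y, W (y - x) * (a x + a y) = (∫⁻ p, W p) * a x + ∫⁻ y, W (y - x) * a y := by
    intro x
    simp only [mul_add]
    rw [lintegral_add_left (by fun_prop), lintegral_mul_const _ (by fun_prop),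
      lintegral_sub_right_eq_self W x]
  have e2 : ∫⁻ x, ∫⁻ y, W (y - x) * a y = (∫⁻ p, W p) * ∫⁻ x, a x := by
    rw [lintegral_lintegral_swap (by fun_prop), ← lintegral_const_mul _ ha]
    refine lintegral_congr fun y => ?_
    rw [lintegral_mul_const _ (by fun_prop), lintegral_sub_left_eq_self W y]
  simp only [e1]
  rw [lintegral_add_left (by fun_prop), lintegral_const_mul _ ha, e2, mul_assoc, two_mul]

end Fr

theorem far (hL : LensStmt n) (hG : GeoStmt n) (hT : TL0Stmt n) : FarStmt n := by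
  intro K T δ δ' hK hδ hδ'
  obtain ⟨C, hC, hT⟩ := hT
  obtain ⟨c, hc, hG⟩ := hG (10 * (K + C)) (by positivity)
  obtain ⟨L0, hL0, hG⟩ := hG T
  obtain ⟨L1, hL⟩ := hL c δ hc hδ
  obtain ⟨κ, hκ, hU⟩ := flatU' n
  have iG := integrable_Gk_exp (n := n) (a := 1) two_pos (by norm_num)
  set I := ∫ z : EE n, Gk 2 z * Real.exp (1 * ‖z‖) with hI
  have g0 : ∀ z : EE n, 0 ≤ Gk 2 z * Real.exp (1 * ‖z‖) := fun z =>
    mul_nonneg (Gk_nonneg _ _) (Real.exp_pos _).le
  have I0 : 0 ≤ I := integral_nonneg g0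
  set A := (K * (4 * K) ^ K) ^ 2 * Real.exp C with hA
  have A0 : 0 ≤ A := by positivity
  set η := δ' / (2 * (I + 1)) with hη
  have η0 : 0 < η := by positivity
  obtain ⟨L2, hL2⟩ : ∃ L2 : ℝ, ∀ D, L2 ≤ D → A * Real.exp (7 / 10 * D) ≤ η * Real.exp (1 * D) := by
    refine ⟨10 / 3 * (A / η), fun D hD => ?_⟩
    have h1 := Real.add_one_le_exp (3 / 10 * D)
    have h2 : A ≤ η * Real.exp (3 / 10 * D) := by
      rw [← div_le_iff₀' η0]
      linarith
    calc _ ≤ η * Real.exp (3 / 10 * D) * Real.exp (7 / 10 * D) := by gcongr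
      _ = _ := by rw [mul_assoc, ← Real.exp_add]; congr 2; ring
  refine ⟨max (max L0 L1) (max L2 (10 * (K + C) / κ)), lt_max_of_lt_left (lt_max_of_lt_left hL0),
    fun v f hv hs mf hf hcmp => ?_⟩
  set L := max (max L0 L1) (max L2 (10 * (K + C) / κ)) with hLd
  have l0 : L0 ≤ L := le_max_of_le_left (le_max_left _ _)
  have l1 : L1 ≤ L := le_max_of_le_left (le_max_right _ _)
  have l2 : L2 ≤ L := le_max_of_le_right (le_max_left _ _)
  have l3 : 10 * (K + C) / κ ≤ L := le_max_of_le_right (le_max_right _ _)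
  set W : EE n → ℝ≥0∞ := fun p => oR (η * (Gk 2 p * Real.exp (1 * ‖p‖))) with hW
  set a : EE n → ℝ≥0∞ := fun x => ind (|dd v x| ≤ T) * oR (tt v x * f x ^ 2) with ha
  have mG := measurable_Gk (n := n) 2
  have mW : Measurable W := by rw [hW]; fun_prop
  have mt := hv.tt_sm.continuous.measurable
  have ma : Measurable a :=
    (measurable_ind (measurableSet_le hv.dd_sm.continuous.measurable.abs measurable_const)).mul
      (by fun_prop)
  have pay : ∀ x y z, |dd v z| ≤ T → L < dist x y → (f x - f y) ^ 2 ≤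
      A * Real.exp (7 / 10 * dist x y) * (tt v z * f z ^ 2) →
      kk v x y * oR ((f x - f y) ^ 2) ≤ W (y - x) * a z := by
    intro x y z hz hD h
    have t0 : 0 ≤ tt v z * f z ^ 2 := mul_nonneg (hv.tt_nonneg z) (sq_nonneg _)
    have h2 := h.trans (mul_le_mul_of_nonneg_right (hL2 _ (l2.trans hD.le)) t0)
    refine (mul_le_mul' (Fr.kk_le hv x y) (ENNReal.ofReal_le_ofReal h2)).trans (le_of_eq ?_)
    simp only [hW, ha, ind_of hz, one_mul]
    rw [← ENNReal.ofReal_mul (Gk_nonneg _ _), ← ENNReal.ofReal_mul (by simpa using mul_nonneg η0.le (g0 _)),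
      dist_comm, dist_eq_norm]
    congr 1
    ring
  have pt : ∀ x y, ind (|dd v x| ≤ T ∧ |dd v y| ≤ T ∧ L < dist x y ∧ -1 / 8 < ⟪nn v x, nn v y⟫) *
      (kk v x y * oR ((f x - f y) ^ 2)) ≤ ind (L < dist x y ∧ Lens v c x y) *
        (kk v x y * oR ((f x - f y) ^ 2)) + W (y - x) * (a x + a y) := by
    intro x y
    refine ind_mul_le fun ⟨hx, hy, hD, hn⟩ => ?_
    by_cases hl : Lens v c x y
    · rw [ind_of ⟨hD, hl⟩, one_mul]
      exact le_self_add
    refine le_add_left ?_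
    have D0 : 0 < dist x y := (hL0.trans_le l0).trans hD
    have k0 : 0 < 10 * (K + C) / dist x y := by positivity
    have hN : ∀ z, Flat v (10 * (K + C) / dist x y) z → 1 / 2 ≤ NN v z := fun z hz =>
      hU v hv hs z fun w => (hz w).trans (mul_le_mul_of_nonneg_right (by
        rw [div_le_iff₀' D0, ← div_le_iff₀ hκ]; exact l3.trans hD.le) (sq_nonneg _))
    by_cases fx : Flat v (10 * (K + C) / dist x y) x
    · by_cases fy : Flat v (10 * (K + C) / dist x y) y
      · exact absurd (hG v x y hv hx hy (l0.trans hD.le) (hN x fx) (hN y fy) fx fy hl) (not_le.2 hn)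
      · have h := Fr.paid hv hK hC hf hcmp hy hx D0 (dist_eq_norm x y).symm fy (hT v y _ hv k0 fy)
        rw [← neg_sub, neg_sq] at h
        exact (pay x y y hy hD h).trans (mul_le_mul_right le_add_self _)
    · have h := Fr.paid hv hK hC hf hcmp hx hy D0 (by rw [dist_comm, dist_eq_norm]) fx
        (hT v x _ hv k0 fx)
      exact (pay x y x hx hD h).trans (mul_le_mul_right le_self_add _)
  have mB : Measurable fun p : EE n × EE n => W (p.2 - p.1) * (a p.1 + a p.2) := by fun_prop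
  have eW : ∫⁻ p, W p = oR (η * I) := by
    rw [hW, ← ofReal_integral_eq_lintegral_ofReal (iG.const_mul η)
      (Eventually.of_forall fun z => mul_nonneg η0.le (g0 z)), integral_const_mul]
  calc _ ≤ ∫⁻ x, ∫⁻ y, (ind (L < dist x y ∧ Lens v c x y) * (kk v x y * oR ((f x - f y) ^ 2)) +
        W (y - x) * (a x + a y)) := lintegral_mono fun x => lintegral_mono fun y => pt x y
    _ = Ec v f (fun x y => L < dist x y ∧ Lens v c x y) + ∫⁻ x, ∫⁻ y, W (y - x) * (a x + a y) := by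
        rw [Ec, ← lintegral_add_right _ mB.lintegral_prod_right']
        exact lintegral_congr fun x => lintegral_add_right _ (by fun_prop)
    _ ≤ _ := by
        refine add_le_add (hL L l1 v f hv mf) ?_
        rw [Fr.lint_conv mW ma, eW]
        refine mul_le_mul_left ?_ _
        rw [← ENNReal.ofReal_ofNat 2, ← ENNReal.ofReal_mul zero_le_two]
        refine ENNReal.ofReal_le_ofReal ?_
        have e : 2 * (η * (I + 1)) = δ' := by rw [hη]; field_simp
        nlinarith

end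

end Crest.Agent.N067.S
end

-- ▼ part N067/S/Lens
section

/-! # Row 67, block STAB, leaf LENS: far pairs with a zero in the lens -/

set_option autoImplicit false

open MeasureTheory Laplacian InnerProductSpace Topology Filter Set Metric
open scoped RealInnerProductSpace ContDiff Gradient ENNReal NNReal

namespace Crest.Agent.N067.S

open Crest.Agent.R077 Crest.Agent.N067.Ker Crest.Agent.N067.M

noncomputable section

variable {n : ℕ}

namespace Ls

theorem int_exp {a : ℝ} (ha : 0 < a) : Integrable fun z : EE n => Real.exp (-(a * ‖z‖)) := by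
  have h : Integrable fun z : EE n => Real.exp (-‖z‖) := by
    refine ((integrable_one_add_norm (E := EE n) (μ := volume) (r := ((n + 1 : ℕ) : ℝ))
      (by simp)).const_mul (((n + 1).factorial : ℝ) * Real.exp 1)).mono' (by fun_prop)
      (Eventually.of_forall fun z => ?_)
    have h1 := Real.pow_div_factorial_le_exp (1 + ‖z‖) (by positivity) (n + 1)
    rw [Real.norm_of_nonneg (Real.exp_pos _).le, Real.rpow_neg (by positivity), Real.rpow_natCast,
      Real.exp_neg, ← div_eq_mul_inv, le_div_iff₀ (by positivity), inv_mul_le_iff₀ (Real.exp_pos _)]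
    rw [div_le_iff₀ (by positivity), Real.exp_add] at h1
    linarith
  simpa [norm_smul, abs_of_pos ha] using h.comp_smul ha.ne'

theorem psi_ge {v : EE n → ℝ} (h : Sol v) {m m' : EE n} (hm : v m = 0) (h' : m' ∈ ball m (1 / 2)) :
    9 / 16 ≤ psi v m' ^ 2 := by
  have a1 := Convex.norm_image_sub_le_of_norm_fderiv_le (𝕜 := ℝ) (C := 1) (f := v)
    (fun y _ => h.diff y) (fun y _ => by
      rw [← norm_grad, h.grad_v, norm_smul, Real.norm_of_nonneg (div_nonneg (h.psi_pos y).le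
        sqrt2_pos.le)]
      exact mul_le_one₀ (div_le_one_of_le₀ ((psi_le_one v y).trans (Real.one_le_sqrt.2 one_le_two))
        sqrt2_pos.le) (norm_nonneg _) (h.norm_grad_dd_le y)) convex_univ (mem_univ m) (mem_univ m')
  rw [hm, sub_zero, Real.norm_eq_abs] at a1
  have a2 := mem_ball_iff_norm.1 h'
  have : v m' ^ 2 ≤ 1 / 4 := by nlinarith [sq_abs (v m'), abs_nonneg (v m')]
  unfold psi; nlinarith

/-- one half of the pointwise bound -/
theorem half (hn : 2 ≤ n) {v : EE n → ℝ} (h : Sol v) {c s : ℝ} {x y m m' : EE n}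
    (hD : 1 ≤ c * ‖y - x‖) (hm : v m = 0) (hx : dist m x ≤ (1 - c) * ‖y - x‖)
    (h' : m' ∈ ball m (1 / 2)) (hne : m' ≠ x) (hs : 0 ≤ s) :
    psi v x ^ 2 * Gk 2 (y - x) * psi v y ^ 2 * (2 * s) ≤
      4 * Real.exp (-(c / 2 * ‖y - x‖)) * (psi v x ^ 2 * Gk 2 (m' - x) * psi v m' ^ 2 * s) := by
  have h1 : ‖m' - x‖ ≤ (1 - c / 2) * ‖y - x‖ := by
    rw [← dist_eq_norm]; linarith [dist_triangle m' m x, mem_ball.1 h']
  have h2 := Gk_le_exp hn two_pos (sub_ne_zero.2 hne) (z := y - x) (by linarith)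
  have h3 : Real.exp (-√2 * (‖y - x‖ - ‖m' - x‖)) ≤ Real.exp (-(c / 2 * ‖y - x‖)) :=
    Real.exp_le_exp.2 (by nlinarith [Real.one_le_sqrt.2 (one_le_two (α := ℝ))])
  have h4 : psi v y ^ 2 ≤ 1 := pow_le_one₀ (h.psi_pos y).le (psi_le_one v y)
  have h5 := psi_ge h hm h'
  have h6 := Gk_nonneg 2 (m' - x)
  have h7 := Gk_nonneg 2 (y - x)
  calc _ ≤ psi v x ^ 2 * (Real.exp (-(c / 2 * ‖y - x‖)) * Gk 2 (m' - x)) * (2 * psi v m' ^ 2) *
        (2 * s) := by
        gcongr
        · exact h2.trans (by gcongr)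
        · linarith
    _ = _ := by ring

end Ls

open Ls in
theorem lens (hn : 2 ≤ n) : LensStmt n := fun c δ hc hδ => by
  have : NeZero n := ⟨by omega⟩
  set V := volume (ball (0 : EE n) (1 / 2)) with hV
  have V0 : V ≠ 0 := (measure_ball_pos _ _ (by norm_num)).ne'
  have V1 : V ≠ ⊤ := measure_ball_lt_top.ne
  set I := ∫⁻ p : EE n, oR (Real.exp (-(c / 4 * ‖p‖))) with hI
  have I1 : I ≠ ⊤ := (int_exp (by positivity)).lintegral_lt_top.ne
  set K := (V⁻¹ * (2 * I)).toReal with hK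
  have K0 : 0 ≤ K := ENNReal.toReal_nonneg
  refine ⟨max (1 / c) (16 * K / (c * δ)), fun L hL v f h hf => ?_⟩
  have L1 : 1 ≤ c * L := by rw [mul_comm, ← div_le_iff₀ hc]; exact (le_max_left _ _).trans hL
  have L2 : 16 * K ≤ L * (c * δ) := (div_le_iff₀ (by positivity)).1 ((le_max_right _ _).trans hL)
  have mψ := h.psi_sm.continuous.measurable
  have mG := measurable_Gk (n := n) 2
  set F : EE n → ℝ≥0∞ := fun x => ∫⁻ m, kk v x m * oR ((f x - f m) ^ 2) with hF
  have m2 : Measurable fun p : EE n × EE n => kk v p.1 p.2 * oR ((f p.1 - f p.2) ^ 2) := by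
    unfold kk; fun_prop
  have mF : Measurable F := m2.lintegral_prod_right'
  have m3 : Measurable fun p : EE n × EE n => oR (Real.exp (-(c / 4 * ‖p.2 - p.1‖))) := by fun_prop
  have k0 : ∀ x y, 0 ≤ psi v x ^ 2 * Gk 2 (y - x) * psi v y ^ 2 := fun x y =>
    mul_nonneg (mul_nonneg (sq_nonneg _) (Gk_nonneg _ _)) (sq_nonneg _)
  have key : ∀ x y, ind (L < dist x y ∧ Lens v c x y) * (kk v x y * oR ((f x - f y) ^ 2)) ≤
      V⁻¹ * oR (4 * Real.exp (-(c / 4 * L))) *
        (oR (Real.exp (-(c / 4 * ‖y - x‖))) * F x + oR (Real.exp (-(c / 4 * ‖y - x‖))) * F y) :=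
    fun x y => ind_mul_le fun ⟨hD, m, hm, m1, m2'⟩ => by
    rw [dist_comm x y, dist_eq_norm y x] at hD m1 m2'
    have hD' : 1 ≤ c * ‖y - x‖ := L1.trans (by gcongr)
    rw [mul_assoc, ← mul_add, ← mul_assoc (oR _), ← ENNReal.ofReal_mul (by positivity),
      ← ENNReal.mul_le_mul_iff_right V0 V1, ENNReal.mul_inv_cancel_left V0 V1, hV,
      ← Measure.addHaar_ball_center volume m, mul_comm, ← setLIntegral_const, hF,
      ← lintegral_add_left (f := fun m => kk v x m * oR ((f x - f m) ^ 2)) (by unfold kk; fun_prop),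
      ← lintegral_const_mul' _ _ ENNReal.ofReal_ne_top]
    refine le_trans (setLIntegral_mono_ae' measurableSet_ball ?_) (setLIntegral_le_lintegral _ _)
    filter_upwards [compl_mem_ae_iff.2 (measure_singleton x),
      compl_mem_ae_iff.2 (measure_singleton y)] with m' n1 n2 hm'
    have a1 := half hn h hD' hm m1 hm' n1 (sq_nonneg (f x - f m'))
    have a2 := half hn h (x := y) (y := x) (c := c) (by rwa [norm_sub_rev]) hm (by rwa [norm_sub_rev]) hm' n2
      (sq_nonneg (f y - f m'))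
    rw [Gk_sub_comm 2 x y, norm_sub_rev x y] at a2
    have a3 : Real.exp (-(c / 2 * ‖y - x‖)) ≤
        Real.exp (-(c / 4 * L)) * Real.exp (-(c / 4 * ‖y - x‖)) := by
      rw [← Real.exp_add]; exact Real.exp_le_exp.2 (by nlinarith)
    have a4 := mul_le_mul_of_nonneg_left (show (f x - f y) ^ 2 ≤ 2 * (f x - f m') ^ 2 +
      2 * (f y - f m') ^ 2 by nlinarith [sq_nonneg (f x + f y - 2 * f m')]) (k0 x y)
    have b1 := mul_nonneg (k0 x m') (sq_nonneg (f x - f m'))
    have b2 := mul_nonneg (k0 y m') (sq_nonneg (f y - f m'))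
    simp only [kk]
    rw [← ENNReal.ofReal_mul (k0 _ _), ← ENNReal.ofReal_mul (k0 _ _), ← ENNReal.ofReal_mul (k0 _ _),
      ← ENNReal.ofReal_add b1 b2, ← ENNReal.ofReal_mul (by positivity)]
    refine ENNReal.ofReal_le_ofReal ?_
    nlinarith [mul_le_mul_of_nonneg_right a3 (add_nonneg b1 b2)]
  have e1 : ∫⁻ x, ∫⁻ y, oR (Real.exp (-(c / 4 * ‖y - x‖))) * F x = I * E0 v f := by
    rw [E0, ← lintegral_const_mul _ mF]
    refine lintegral_congr fun x => ?_
    rw [lintegral_mul_const _ (by fun_prop),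
      lintegral_sub_right_eq_self (fun p : EE n => oR (Real.exp (-(c / 4 * ‖p‖)))) x]
  have e2 : ∫⁻ x, ∫⁻ y, oR (Real.exp (-(c / 4 * ‖y - x‖))) * F y = I * E0 v f := by
    rw [lintegral_lintegral_swap (m3.mul (mF.comp measurable_snd)).aemeasurable, ← e1]
    simp only [norm_sub_rev]
  have c1 : V⁻¹ * oR (4 * Real.exp (-(c / 4 * L))) ≠ ⊤ :=
    ENNReal.mul_ne_top (ENNReal.inv_ne_top.2 V0) ENNReal.ofReal_ne_top
  refine (lintegral_mono fun x => lintegral_mono fun y => key x y).trans ?_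
  simp_rw [lintegral_const_mul' _ _ c1, fun x => lintegral_add_left (μ := volume)
    (show Measurable fun y => oR (Real.exp (-(c / 4 * ‖y - x‖))) * F x by fun_prop)]
  rw [lintegral_add_left (f := fun x => ∫⁻ y, oR (Real.exp (-(c / 4 * ‖y - x‖))) * F x)
    (Measurable.lintegral_prod_right (by fun_prop)), e1, e2, ← two_mul,
    ← mul_assoc 2, ← mul_assoc, mul_right_comm V⁻¹, ← ENNReal.ofReal_toReal (ENNReal.mul_ne_top
      (ENNReal.inv_ne_top.2 V0) (ENNReal.mul_ne_top ENNReal.ofNat_ne_top I1)), ← hK,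
    ← ENNReal.ofReal_mul K0]
  refine mul_le_mul_left (ENNReal.ofReal_le_ofReal ?_) _
  rw [Real.exp_neg, ← mul_assoc, ← div_eq_mul_inv, div_le_iff₀ (Real.exp_pos _)]
  nlinarith [Real.add_one_le_exp (c / 4 * L)]

end

end Crest.Agent.N067.S
end

-- ▼ part N067/S/Ret
section

/-!
# Row 67, block STAB (helper41): the radial retraction
-/

set_option autoImplicit false

open MeasureTheory Laplacian InnerProductSpace Topology Filter Set Metric
open scoped RealInnerProductSpace ContDiff Gradient ENNReal NNReal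

namespace Crest.Agent.N067.S

open Crest.Agent.R077

noncomputable section

variable {n : ℕ}

namespace Rt

theorem det_id_add (l : EE n →L[ℝ] ℝ) (v : EE n) :
    (ContinuousLinearMap.id ℝ (EE n) + l.smulRight v).det = 1 + l v := by
  classical
  let b := Module.finBasis ℝ (EE n)
  rw [ContinuousLinearMap.det, ← LinearMap.det_toMatrix b]
  have h1 : ((ContinuousLinearMap.id ℝ (EE n) + l.smulRight v : EE n →L[ℝ] EE n) :
      EE n →ₗ[ℝ] EE n) = LinearMap.id + (l : EE n →ₗ[ℝ] ℝ).smulRight v := by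
    ext x; simp
  rw [h1, map_add, LinearMap.toMatrix_id, LinearMap.toMatrix_smulRight,
    Matrix.vecMulVec_eq Unit, Matrix.det_one_add_replicateCol_mul_replicateRow]
  congr 1
  conv_rhs => rw [← b.sum_repr v]
  simp only [_root_.map_sum, map_smul, smul_eq_mul, dotProduct, Function.comp_apply,
    ContinuousLinearMap.coe_coe, mul_comm]

/-- the radial profile -/
def ro (a η r : ℝ) : ℝ := if r ≤ a then r else a + (r - a) / (1 + η * (r - a))

/-- the retraction -/
def RR (a η : ℝ) (p : EE n) : EE n := (ro a η ‖p‖ / ‖p‖) • p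

variable {a η r s : ℝ}

theorem ro_of_le (h : r ≤ a) : ro a η r = r := if_pos h

theorem ro_of_ge (h : a ≤ r) : ro a η r = a + (r - a) / (1 + η * (r - a)) := by
  rcases h.eq_or_lt with rfl | h
  · simp [ro]
  · exact if_neg (not_le.2 h)

theorem ro_incr (hη : 0 < η) (h : s < r) : 0 < ro a η r - ro a η s ∧ ro a η r - ro a η s ≤ r - s := by
  have key : ∀ {s r : ℝ}, a ≤ s → s < r →
      0 < ro a η r - ro a η s ∧ ro a η r - ro a η s ≤ r - s := fun {s r} hs h => by
    have h1 : 0 ≤ η * (s - a) := mul_nonneg hη.le (by linarith)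
    have h2 : 0 ≤ η * (r - a) := mul_nonneg hη.le (by linarith)
    have e : ro a η r - ro a η s = (r - s) / ((1 + η * (r - a)) * (1 + η * (s - a))) := by
      rw [ro_of_ge hs, ro_of_ge (hs.trans h.le), add_sub_add_left_eq_sub,
        div_sub_div _ _ (by positivity) (by positivity)]
      congr 1
      ring
    rw [e]
    exact ⟨div_pos (by linarith) (by positivity), div_le_self (by linarith) (by nlinarith)⟩
  rcases le_or_gt r a with hr | hr
  · rw [ro_of_le hr, ro_of_le (h.le.trans hr)]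
    exact ⟨by linarith, le_rfl⟩
  rcases le_or_gt a s with hs | hs
  · exact key hs h
  · have := key le_rfl hr
    rw [ro_of_le hs.le]
    rw [ro_of_le le_rfl] at this
    constructor <;> linarith [this.1, this.2]

theorem ro_bd (ha : 0 ≤ a) (hη : 0 < η) (hr : 0 ≤ r) : 0 ≤ ro a η r ∧ ro a η r ≤ r := by
  rcases hr.eq_or_lt with rfl | hr
  · rw [ro_of_le ha]; exact ⟨le_rfl, le_rfl⟩
  · have := ro_incr (a := a) hη hr
    rw [ro_of_le ha] at this
    constructor <;> linarith [this.1, this.2]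

theorem ro_lt (hη : 0 < η) : ro a η r < a + 1 / η := by
  have h0 : 0 < 1 / η := by positivity
  rcases le_or_gt r a with hr | hr
  · rw [ro_of_le hr]; linarith
  · have h2 : 0 ≤ η * (r - a) := mul_nonneg hη.le (by linarith)
    rw [ro_of_ge hr.le, add_lt_add_iff_left, div_lt_div_iff₀ (by positivity) hη]
    linarith

theorem coef (ha : 0 ≤ a) (hη : 0 < η) (p : EE n) :
    0 ≤ ro a η ‖p‖ / ‖p‖ ∧ ro a η ‖p‖ / ‖p‖ ≤ 1 ∧ ro a η ‖p‖ / ‖p‖ * ‖p‖ = ro a η ‖p‖ := by
  have h := ro_bd ha hη (norm_nonneg p)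
  refine ⟨div_nonneg h.1 (norm_nonneg p), div_le_one_of_le₀ h.2 (norm_nonneg p), ?_⟩
  rcases (norm_nonneg p).eq_or_lt with h0 | h0
  · rw [← h0, ro_of_le ha, mul_zero]
  · field_simp

theorem norm_RR (ha : 0 ≤ a) (hη : 0 < η) (p : EE n) : ‖RR a η p‖ = ro a η ‖p‖ := by
  rw [RR, norm_smul, Real.norm_of_nonneg (coef ha hη p).1, (coef ha hη p).2.2]

theorem RR_of_le {p : EE n} (h : ‖p‖ ≤ a) : RR a η p = p := by
  rw [RR, ro_of_le h]
  rcases eq_or_ne p 0 with rfl | h0
  · simp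
  · rw [div_self (norm_ne_zero_iff.2 h0), one_smul]

theorem lip_RR (ha : 0 ≤ a) (hη : 0 < η) : LipschitzWith 1 (RR a η : EE n → EE n) := by
  refine LipschitzWith.of_dist_le_mul fun p q => ?_
  rw [NNReal.coe_one, one_mul, dist_eq_norm, dist_eq_norm]
  refine abs_le_of_sq_le_sq' ?_ (norm_nonneg _) |>.2
  obtain ⟨a0, a1, a2⟩ := coef ha hη p
  obtain ⟨b0, b1, b2⟩ := coef ha hη q
  have h1 : (ro a η ‖p‖ - ro a η ‖q‖) ^ 2 ≤ (‖p‖ - ‖q‖) ^ 2 := by
    rcases lt_trichotomy ‖p‖ ‖q‖ with h | h | h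
    · have := ro_incr (a := a) hη h; nlinarith [this.1, this.2]
    · rw [h]; simp
    · have := ro_incr (a := a) hη h; nlinarith [this.1, this.2]
  have h2 := real_inner_le_norm p q
  rw [norm_sub_sq_real, norm_sub_sq_real, norm_RR ha hη, norm_RR ha hη, RR, RR, inner_smul_left,
    inner_smul_right]
  set α := ro a η ‖p‖ / ‖p‖
  set β := ro a η ‖q‖ / ‖q‖
  rw [← a2, ← b2] at h1 ⊢
  have h3 : α * β ≤ 1 := mul_le_one₀ a1 b0 b1
  have h4 := mul_nonneg (sub_nonneg.2 h3) (sub_nonneg.2 h2)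
  simp only [conj_trivial]
  nlinarith

theorem geo {l : ℝ} (hl : 0 ≤ l) (hη : 0 < η) (p y : EE n) (hy : ‖y‖ ≤ l) :
    ‖RR (3 * l) η p - y‖ + (‖p‖ - ‖RR (3 * l) η p‖) / 2 ≤ ‖p - y‖ := by
  have ha : 0 ≤ 3 * l := by linarith
  rcases le_or_gt ‖p‖ (3 * l) with h | h
  · rw [RR_of_le h]; simp
  obtain ⟨a0, a1, a2⟩ := coef ha hη p
  have h1 : 3 * l ≤ ro (3 * l) η ‖p‖ := by
    have := (ro_incr (a := 3 * l) hη h).1
    rw [ro_of_le le_rfl] at this
    linarith
  have h2 : ‖RR (3 * l) η p - y‖ ≤ ro (3 * l) η ‖p‖ + l :=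
    (norm_sub_le _ _).trans (by rw [norm_RR ha hη]; linarith)
  have h3 : ⟪y, p⟫ ≤ l * ‖p‖ :=
    (real_inner_le_norm y p).trans (mul_le_mul_of_nonneg_right hy (norm_nonneg p))
  set α := ro (3 * l) η ‖p‖ / ‖p‖ with hα
  have e : p - y = (RR (3 * l) η p - y) + (1 - α) • p := by
    rw [RR, ← hα, sub_smul, one_smul]; abel
  have e2 : ⟪RR (3 * l) η p - y, (1 - α) • p⟫ = (1 - α) * (α * ‖p‖ ^ 2 - ⟪y, p⟫) := by
    rw [inner_smul_right, inner_sub_left, RR, ← hα, inner_smul_left, real_inner_self_eq_norm_sq]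
    simp
  have e3 : ‖(1 - α) • p‖ = (1 - α) * ‖p‖ := by
    rw [norm_smul, Real.norm_of_nonneg (by linarith)]
  refine abs_le_of_sq_le_sq' ?_ (norm_nonneg _) |>.2
  rw [e, norm_add_sq_real, e2, e3, norm_RR ha hη]
  rw [← a2] at h1 h2 ⊢
  have h4 : 0 ≤ (1 - α) * ‖p‖ := mul_nonneg (by linarith) (norm_nonneg p)
  have h5 := mul_le_mul_of_nonneg_left h3 (sub_nonneg.2 a1)
  have h6 := mul_le_mul_of_nonneg_left (show ‖RR (3 * l) η p - y‖ ≤ 2 * (α * ‖p‖ - l) by linarith) h4
  nlinarith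

theorem deriv_RR (ha : 0 < a) (hη : 0 < η) {p : EE n} (h : a < ‖p‖) :
    ∃ D : EE n →L[ℝ] EE n, HasFDerivAt (RR a η) D p ∧
      ((1 + η * (‖p‖ - a)) ^ (n + 2))⁻¹ ≤ |D.det| := by
  have hr : 0 < ‖p‖ := ha.trans h
  have hp : p ≠ 0 := norm_pos_iff.1 hr
  set r := ‖p‖ with hr'
  have hw : 1 ≤ 1 + η * (r - a) := by nlinarith
  set w := 1 + η * (r - a) with hw'
  have d1 : HasDerivAt (fun r => ro a η r) (1 / w ^ 2) r := by
    have h1 : HasDerivAt (fun r => r - a) 1 r := (hasDerivAt_id r).sub_const a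
    have h2 := ((h1.div ((h1.const_mul η).const_add 1) (by positivity)).const_add a)
    refine (h2.congr_deriv ?_).congr_of_eventuallyEq ?_
    · rw [← hw']; field_simp; rw [hw']; ring
    · filter_upwards [Ioi_mem_nhds h] with s hs using ro_of_ge (le_of_lt hs)
  have d2 := d1.div (hasDerivAt_id r) hr.ne'
  have d3 : DifferentiableAt ℝ (fun q : EE n => ro a η ‖q‖ / ‖q‖) p :=
    DifferentiableAt.comp (g := fun r => ro a η r / r) p d2.differentiableAt
      (differentiableAt_id.norm ℝ hp)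
  set g := ro a η r / r with hg
  set L := fderiv ℝ (fun q : EE n => ro a η ‖q‖ / ‖q‖) p with hL
  have hLp : L p = 1 / w ^ 2 - g := by
    have e1 : HasDerivAt (fun t : ℝ => t • p) p 1 := by
      simpa using (hasDerivAt_id (1 : ℝ)).smul_const p
    have e2 := (show HasFDerivAt _ L ((1 : ℝ) • p) by
      rw [one_smul]; exact d3.hasFDerivAt).comp_hasDerivAt (1 : ℝ) e1
    have e3 : HasDerivAt (fun t : ℝ => t * r) r 1 := by
      simpa using (hasDerivAt_id (1 : ℝ)).mul_const r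
    have e4 := (show HasDerivAt _ _ (1 * r) by rw [one_mul]; exact d2).comp (1 : ℝ) e3
    have e5 := e2.unique (e4.congr_of_eventuallyEq (by
      filter_upwards [Ioi_mem_nhds (zero_lt_one (α := ℝ))] with t ht
      simp [norm_smul, abs_of_pos (show 0 < t from ht), hr']))
    rw [e5, hg]
    simp only [id]
    field_simp
  have hg1 : g ≤ 1 := (coef ha.le hη p).2.1
  have hgw : 1 / w ≤ g := by
    rw [hg, ro_of_ge h.le, ← hw', div_le_div_iff₀ (by positivity) hr, add_mul,
      div_mul_cancel₀ _ (by positivity)]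
    nlinarith
  have hg0 : 0 < g := lt_of_lt_of_le (by positivity) hgw
  refine ⟨g • (ContinuousLinearMap.id ℝ (EE n) + (g⁻¹ • L).smulRight p), ?_, ?_⟩
  · refine (d3.hasFDerivAt.smul (hasFDerivAt_id p)).congr_fderiv ?_
    ext1 h
    simp [← hL, ← hr', ← hg, smul_smul, hg0.ne']
  · have e : (g • (ContinuousLinearMap.id ℝ (EE n) + (g⁻¹ • L).smulRight p)).det =
        g ^ n * (1 + g⁻¹ * L p) := by
      rw [ContinuousLinearMap.det, ContinuousLinearMap.toLinearMap_smul, LinearMap.det_smul,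
        finrank_euclideanSpace_fin]
      congr 1
      exact det_id_add _ _
    rw [e, hLp]
    refine le_trans ?_ (le_abs_self _)
    have e2 : 1 + g⁻¹ * (1 / w ^ 2 - g) = g⁻¹ * (1 / w ^ 2) := by field_simp; ring
    have h1 : 1 ≤ g⁻¹ := one_le_inv_iff₀.2 ⟨hg0, hg1⟩
    rw [e2, pow_add, mul_inv, ← inv_pow, ← one_div w, ← one_div (w ^ 2)]
    exact mul_le_mul (pow_le_pow_left₀ (by positivity) hgw n)
      (le_mul_of_one_le_left (by positivity) h1) (by positivity) (by positivity)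

theorem num {e : ℝ} (he : 0 < e) (N : ℕ) : ∃ η : ℝ, 0 < η ∧ ∀ s : ℝ, 0 ≤ s →
    Real.exp (-(√2 * (s - s / (1 + η * s)))) ≤ (1 + e) * ((1 + η * s) ^ N)⁻¹ := by
  have hl : 0 < Real.log (1 + e) := Real.log_pos (by linarith)
  have hN : (0 : ℝ) ≤ N := Nat.cast_nonneg N
  set η : ℝ := min (1 / (2 * N + 1)) (Real.log (1 + e) / (2 * N ^ 2 + 1)) with hη
  have h0 : 0 < η := lt_min (by positivity) (by positivity)
  have h1 : η * (2 * N + 1) ≤ 1 := (le_div_iff₀ (by positivity)).1 (min_le_left _ _)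
  have h2 : η * (2 * N ^ 2 + 1) ≤ Real.log (1 + e) :=
    (le_div_iff₀ (by positivity)).1 (min_le_right _ _)
  refine ⟨η, h0, fun s hs => ?_⟩
  have hx : 0 ≤ η * s := mul_nonneg h0.le hs
  have h3 : (1 + η * s) ^ N ≤ Real.exp (N * (η * s)) := by
    rw [Real.exp_nat_mul]
    exact pow_le_pow_left₀ (by positivity) (by linarith [Real.add_one_le_exp (η * s)]) N
  have e1 : s - s / (1 + η * s) = η * s * (s / (1 + η * s)) := by field_simp; ring
  have h4 : 0 ≤ s - s / (1 + η * s) := by rw [e1]; positivity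
  have h5 : (1 : ℝ) ≤ √2 := Real.one_le_sqrt.2 one_le_two
  have h6 : N * (η * s) ≤ Real.log (1 + e) + √2 * (s - s / (1 + η * s)) := by
    have h7 := le_mul_of_one_le_left h4 h5
    rcases le_total s (2 * N) with h | h
    · nlinarith [mul_le_mul_of_nonneg_left h (mul_nonneg hN h0.le)]
    · have h8 : N ≤ s / (1 + η * s) := by
        rw [le_div_iff₀ (by positivity)]
        nlinarith [mul_le_mul_of_nonneg_right h1 hs]
      nlinarith [mul_le_mul_of_nonneg_left h8 hx]
  rw [← div_eq_mul_inv, le_div_iff₀ (by positivity)]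
  calc _ ≤ Real.exp (-(√2 * (s - s / (1 + η * s)))) * Real.exp (N * (η * s)) := by gcongr
    _ ≤ Real.exp (Real.log (1 + e)) := by rw [← Real.exp_add]; gcongr; linarith
    _ = 1 + e := Real.exp_log (by linarith)

end Rt

open Rt in
theorem ret (n : ℕ) : RetStmt n := by
  intro e l he hl
  obtain ⟨η, hη, hnum⟩ := num he (n + 2)
  have ha : 0 < 3 * l := by linarith
  have h0 : 0 < 1 / η := by positivity
  refine ⟨3 * l + 1 / η, RR (3 * l) η, by linarith, lip_RR ha.le hη, ?_,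
    fun p hp => RR_of_le (by linarith), fun p => (norm_RR ha.le hη p).trans_lt (ro_lt hη),
    geo hl.le hη, fun p => (norm_RR ha.le hη p).trans_le (ro_bd ha.le hη (norm_nonneg p)).2,
    fun h => ?_⟩
  · have hs : ∀ᵐ p : EE n, p ∉ sphere (0 : EE n) (3 * l) :=
      measure_eq_zero_iff_ae_notMem.1 (Measure.addHaar_sphere_of_ne_zero _ _ ha.ne')
    filter_upwards [hs] with p hp
    rcases lt_or_gt_of_ne (mt mem_sphere_zero_iff_norm.2 hp) with h | h
    · refine differentiableAt_id.congr_of_eventuallyEq ?_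
      filter_upwards [(isOpen_lt continuous_norm continuous_const).mem_nhds h] with q hq
      exact RR_of_le (le_of_lt hq)
    · obtain ⟨D, hD, -⟩ := deriv_RR ha hη h
      exact hD.differentiableAt
  set B := closedBall (0 : EE n) (3 * l) with hB
  have mB : MeasurableSet B := measurableSet_closedBall
  have hc : ∀ p : EE n, p ∈ Bᶜ ↔ 3 * l < ‖p‖ := fun p => by simp [hB]
  choose! D hD using fun (p : EE n) (h : 3 * l < ‖p‖) => deriv_RR (n := n) ha hη h
  have hinj : InjOn (RR (3 * l) η) Bᶜ := fun p hp q hq hpq => by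
    have h1 : ro (3 * l) η ‖p‖ = ro (3 * l) η ‖q‖ := by
      rw [← norm_RR ha.le hη, hpq, norm_RR ha.le hη]
    have h2 : ‖p‖ = ‖q‖ := by
      rcases lt_trichotomy ‖p‖ ‖q‖ with h | h | h
      · linarith [(ro_incr (a := 3 * l) hη h).1]
      · exact h
      · linarith [(ro_incr (a := 3 * l) hη h).1]
    have hq' := (hc q).1 hq
    have h3 := (ro_incr (a := 3 * l) hη hq').1
    rw [ro_of_le le_rfl] at h3
    rw [RR, RR, h2] at hpq
    exact smul_right_injective _ (div_pos (by linarith) (by linarith)).ne' hpq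
  have cv := lintegral_image_eq_lintegral_abs_det_fderiv_mul volume mB.compl
    (fun p hp => (hD p ((hc p).1 hp)).1.hasFDerivWithinAt) hinj h
  have him : RR (3 * l) η '' Bᶜ ⊆ ball 0 (3 * l + 1 / η) \ B := by
    rintro _ ⟨p, hp, rfl⟩
    have h3 := (ro_incr (a := 3 * l) hη ((hc p).1 hp)).1
    rw [ro_of_le le_rfl] at h3
    exact ⟨mem_ball_zero_iff.2 ((norm_RR ha.le hη p).trans_lt (ro_lt hη)),
      (hc _).2 (by rw [norm_RR ha.le hη]; linarith)⟩
  have hsub : B ⊆ ball 0 (3 * l + 1 / η) := closedBall_subset_ball (by linarith)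
  rw [← lintegral_add_compl _ mB, ← union_sdiff_cancel hsub,
    lintegral_union (measurableSet_ball.diff mB) disjoint_sdiff_right, mul_add]
  have h1e : (1 : ℝ≥0∞) ≤ oR (1 + e) := ENNReal.one_le_ofReal.2 (by linarith)
  refine add_le_add ?_ ?_
  · refine le_trans (le_of_eq ?_) (le_mul_of_one_le_left' h1e)
    refine setLIntegral_congr_fun mB fun p hp => ?_
    simp [RR_of_le (mem_closedBall_zero_iff.1 hp)]
  · refine le_trans ?_ (mul_le_mul_right (lintegral_mono_set him) _)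
    rw [cv, ← lintegral_const_mul' _ _ ENNReal.ofReal_ne_top]
    refine setLIntegral_mono' mB.compl fun p hp => ?_
    have hp' := (hc p).1 hp
    rw [← mul_assoc, ← ENNReal.ofReal_mul (by linarith)]
    refine mul_le_mul_left (ENNReal.ofReal_le_ofReal ?_) _
    refine le_trans (le_of_eq ?_) ((hnum (‖p‖ - 3 * l) (by linarith)).trans
      (mul_le_mul_of_nonneg_left (hD p hp').2 (by linarith)))
    rw [norm_RR ha.le hη, ro_of_ge hp'.le]
    congr 3
    ring

end

end Crest.Agent.N067.S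
end

-- ▼ part N067/S/Geo
section

/-!
# Row 67, block STAB: two flat points with an empty lens are opposite (helper60)
-/

set_option autoImplicit false

open InnerProductSpace Set Metric
open scoped RealInnerProductSpace

namespace Crest.Agent.N067.S

open Crest.Agent.R077 Crest.Agent.N067.M

noncomputable section

variable {n : ℕ}

namespace Geo

theorem cone {N p : EE n} {σ : ℝ} (h0 : 0 < σ) (h1 : σ ≤ 1 / 100) (hp : ‖p‖ = 1)
    (hN : 1 / 2 ≤ ‖N‖) (hN1 : ‖N‖ ≤ 1) (h : ∀ e, ‖e‖ ≤ 1 → σ ≤ ⟪e, p⟫ → -1 / 50 ≤ ⟪N, e⟫) :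
    2 / 5 ≤ ⟪N, p⟫ ∧ ‖N - ⟪N, p⟫ • p‖ ≤ 1 / 20 := by
  have hpp : ⟪p, p⟫ = 1 := by rw [real_inner_self_eq_norm_sq, hp, one_pow]
  set a := ⟪N, p⟫ with ha
  set m := N - a • p with hm
  have hmp : ⟪m, p⟫ = 0 := by rw [hm, inner_sub_left, real_inner_smul_left, hpp, mul_one, sub_self]
  have hN' : N = m + a • p := by rw [hm, sub_add_cancel]
  have hNm : ⟪N, m⟫ = ‖m‖ ^ 2 := by
    conv_lhs => rw [hN', inner_add_left, real_inner_smul_left, real_inner_comm m p, hmp,
      real_inner_self_eq_norm_sq, mul_zero, add_zero]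
  have ha0 : -1 / 50 ≤ a := h p hp.le (by linarith)
  have ha1 : a ≤ 1 := by
    have := real_inner_le_norm N p
    rw [hp] at this
    linarith
  have hsq : ‖N‖ ^ 2 = ‖m‖ ^ 2 + a ^ 2 := by
    conv_lhs => rw [hN', norm_add_sq_real, real_inner_smul_right, hmp, norm_smul, hp,
      Real.norm_eq_abs, mul_one, sq_abs]
    ring
  have hm1 : ‖m‖ ≤ 1 / 20 := by
    rcases (norm_nonneg m).eq_or_lt with e | e
    · rw [← e]; norm_num
    have h2 := h (σ • p - ((1 - σ) / ‖m‖) • m) ((norm_sub_le _ _).trans (by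
      rw [norm_smul, norm_smul, hp, Real.norm_of_nonneg h0.le,
        Real.norm_of_nonneg (div_nonneg (by linarith) e.le), div_mul_cancel₀ _ e.ne']
      linarith)) (by
      rw [inner_sub_left, real_inner_smul_left, real_inner_smul_left, hpp, hmp]
      linarith)
    rw [inner_sub_right, real_inner_smul_right, real_inner_smul_right, hNm, ← ha, sq, ← mul_assoc,
      div_mul_cancel₀ _ e.ne'] at h2
    nlinarith
  refine ⟨?_, hm1⟩
  by_contra hc
  push Not at hc
  nlinarith [norm_nonneg m]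

theorem half {d : EE n → ℝ} {N x y : EE n} {σ K T D : ℝ} (h0 : 0 < σ) (h1 : σ ≤ 1 / 100)
    (hK0 : 0 < K) (hK : K * σ ≤ 1 / 100) (hD : D = dist x y) (hD0 : 0 < D) (hT : 100 * T ≤ σ * D)
    (hx : |d x| ≤ T) (hN : 1 / 2 ≤ ‖N‖) (hN1 : ‖N‖ ≤ 1)
    (hf : ∀ z, |d z - d x - ⟪N, z - x⟫| ≤ K / D * ‖z - x‖ ^ 2)
    (hpos : ∀ m, dist m x ≤ (1 - σ ^ 2 / 2) * D → dist m y ≤ (1 - σ ^ 2 / 2) * D → 0 < d m) :
    2 / 5 ≤ ⟪N, D⁻¹ • (y - x)⟫ ∧ ‖N - ⟪N, D⁻¹ • (y - x)⟫ • D⁻¹ • (y - x)‖ ≤ 1 / 20 := by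
  set p := D⁻¹ • (y - x) with hp
  have hp1 : ‖p‖ = 1 := by
    rw [hp, norm_smul, norm_inv, Real.norm_of_nonneg hD0.le, ← dist_eq_norm, dist_comm, ← hD,
      inv_mul_cancel₀ hD0.ne']
  have hy : y = x + D • p := by rw [hp, smul_inv_smul₀ hD0.ne', add_sub_cancel]
  clear_value p
  refine cone h0 h1 hp1 hN hN1 fun e he hep => ?_
  have hn : ‖(σ * D) • e‖ ≤ σ * D := by
    rw [norm_smul, Real.norm_of_nonneg (by positivity)]
    exact mul_le_of_le_one_right (by positivity) he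
  have h2 := hpos (x + (σ * D) • e) (by
    rw [dist_eq_norm, add_sub_cancel_left]
    refine hn.trans ?_
    gcongr
    nlinarith) (by
    have e1 : x + (σ * D) • e - y = D • (σ • e - p) := by
      rw [hy]; module
    rw [dist_eq_norm, e1, norm_smul, Real.norm_of_nonneg hD0.le, mul_comm]
    gcongr
    refine abs_le_of_sq_le_sq' ?_ (by nlinarith) |>.2
    rw [norm_sub_sq_real, real_inner_smul_left, norm_smul, Real.norm_of_nonneg h0.le, hp1, mul_pow]
    have e2 : ‖e‖ ^ 2 ≤ 1 := pow_le_one₀ (norm_nonneg _) he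
    have e3 : σ ^ 2 * ‖e‖ ^ 2 ≤ σ ^ 2 * 1 := by gcongr
    have e4 : σ * σ ≤ σ * ⟪e, p⟫ := by gcongr
    nlinarith [sq_nonneg (σ ^ 2)])
  have h3 := (abs_le.1 (hf (x + (σ * D) • e))).2
  rw [add_sub_cancel_left, real_inner_smul_right] at h3
  have h4 : K / D * ‖(σ * D) • e‖ ^ 2 ≤ 1 / 100 * (σ * D) := by
    calc _ ≤ K / D * (σ * D) ^ 2 := by gcongr
      _ = K * σ * (σ * D) := by field_simp
      _ ≤ _ := by gcongr
  have h5 := (abs_le.1 hx).2
  refine le_of_mul_le_mul_left ?_ (mul_pos h0 hD0)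
  linarith

theorem opp {d : EE n → ℝ} {N N' x y : EE n} {σ K T : ℝ} (h0 : 0 < σ) (h1 : σ ≤ 1 / 100)
    (hK0 : 0 < K) (hK : K * σ ≤ 1 / 100) (hD0 : 0 < dist x y) (hT : 100 * T ≤ σ * dist x y)
    (hx : |d x| ≤ T) (hy : |d y| ≤ T) (hN : 1 / 2 ≤ ‖N‖) (hN1 : ‖N‖ ≤ 1) (hN' : 1 / 2 ≤ ‖N'‖)
    (hN1' : ‖N'‖ ≤ 1) (hf : ∀ z, |d z - d x - ⟪N, z - x⟫| ≤ K / dist x y * ‖z - x‖ ^ 2)
    (hf' : ∀ z, |d z - d y - ⟪N', z - y⟫| ≤ K / dist x y * ‖z - y‖ ^ 2)
    (hpos : ∀ m, dist m x ≤ (1 - σ ^ 2 / 2) * dist x y → dist m y ≤ (1 - σ ^ 2 / 2) * dist x y →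
      0 < d m) : ⟪N, N'⟫ ≤ -1 / 8 := by
  obtain ⟨a1, a2⟩ := half h0 h1 hK0 hK rfl hD0 hT hx hN hN1 hf hpos
  obtain ⟨b1, b2⟩ := half h0 h1 hK0 hK (dist_comm x y) hD0 hT hy hN' hN1' hf' fun m h h' =>
    hpos m h' h
  rw [← neg_sub y x, smul_neg, inner_neg_right] at b1 b2
  set p := (dist x y)⁻¹ • (y - x) with hp
  have hp1 : ⟪p, p⟫ = 1 := by
    rw [real_inner_self_eq_norm_sq, hp, norm_smul, norm_inv, Real.norm_of_nonneg hD0.le,
      ← dist_eq_norm, dist_comm y, inv_mul_cancel₀ hD0.ne', one_pow]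
  clear_value p
  rw [smul_neg, neg_smul, neg_neg] at b2
  have h2 := real_inner_le_norm (N - ⟪N, p⟫ • p) (N' - ⟪N', p⟫ • p)
  rw [inner_sub_left, inner_sub_right, inner_sub_right, real_inner_smul_left, real_inner_smul_left,
    real_inner_smul_right, real_inner_smul_right, hp1, real_inner_comm N' p] at h2
  have h3 : ‖N - ⟪N, p⟫ • p‖ * ‖N' - ⟪N', p⟫ • p‖ ≤ 1 / 20 * (1 / 20) := by gcongr
  have h4 : 2 / 5 * (2 / 5) ≤ ⟪N, p⟫ * -⟪N', p⟫ := by gcongr
  nlinarith

end Geo

theorem geo (n : ℕ) : GeoStmt n := by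
  intro K hK
  set σ : ℝ := min (1 / 100) (1 / (100 * K)) with hσ
  have h0 : 0 < σ := lt_min (by norm_num) (by positivity)
  have h1 : σ ≤ 1 / 100 := min_le_left _ _
  have h2 : K * σ ≤ 1 / 100 := by
    calc K * σ ≤ K * (1 / (100 * K)) := by gcongr; exact min_le_right _ _
      _ = _ := by field_simp
  refine ⟨σ ^ 2 / 2, by positivity, fun T => ⟨100 * |T| / σ + 1, by positivity, ?_⟩⟩
  intro v x y hv hx hy hD hN hN' hf hf' hL
  have hD0 : 0 < dist x y := lt_of_lt_of_le (by positivity) hD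
  have hT : 100 * T ≤ σ * dist x y := by
    have : 100 * |T| / σ ≤ dist x y := by linarith
    rw [div_le_iff₀ h0] at this
    linarith [le_abs_self T]
  set S := closedBall x ((1 - σ ^ 2 / 2) * dist x y) ∩ closedBall y ((1 - σ ^ 2 / 2) * dist x y)
  have hS : IsPreconnected S := ((convex_closedBall _ _).inter (convex_closedBall _ _)).isPreconnected
  have hne : ∀ m ∈ S, v m ≠ 0 := fun m hm e => hL ⟨m, e, hm.1, hm.2⟩
  by_cases hp : ∀ m ∈ S, 0 < v m
  · exact Geo.opp h0 h1 hK h2 hD0 hT hx hy hN (NN_le_one hv x) hN' (NN_le_one hv y) hf hf'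
      fun m h h' => hv.dd_pos (hp m ⟨h, h'⟩)
  · push Not at hp
    obtain ⟨m0, hm0, hv0⟩ := hp
    have hn : ∀ m ∈ S, 0 < ng v m := fun m hm => by
      refine neg_pos.2 (lt_of_not_ge fun h => ?_)
      obtain ⟨z, hz, e⟩ := hS.intermediate_value hm0 hm hv.sm.continuous.continuousOn ⟨hv0, h⟩
      exact hne z hz e
    have key : ∀ w κ, Flat v κ w → ∀ z,
        |-dd v z - -dd v w - ⟪-nn v w, z - w⟫| ≤ κ * ‖z - w‖ ^ 2 := fun w κ h z => by
      rw [inner_neg_left, ← abs_neg]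
      convert h z using 2
      rw [nn]
      ring
    have := Geo.opp (d := fun z => -dd v z) (N := -nn v x) (N' := -nn v y) h0 h1 hK h2 hD0 hT
      (by rwa [abs_neg]) (by rwa [abs_neg]) (by rwa [norm_neg]) (by rw [norm_neg]; exact NN_le_one hv x)
      (by rwa [norm_neg]) (by rw [norm_neg]; exact NN_le_one hv y) (key x _ hf) (key y _ hf')
      fun m h h' => by
        have := (sol_ng hv).dd_pos (hn m ⟨h, h'⟩)
        rwa [dd_ng hv] at this
    rwa [inner_neg_neg] at this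

end

end Crest.Agent.N067.S
end

-- ▼ part N067/A/MLem
section

/-!
Row 67, STAB tools (helper2): the matrix lemma.  For a kernel `K (x, p)` living on segments in `Ω`,
`∬ K (z (x+p) - z x)² ≤ ∬ K̄ (Dz p)²` (cost, `z` locally Lipschitz) and
`∬ K̄ |Df p|² ≤ ∬ K |f (x+p) - f x|² + ∬ K̄ |D²f|² |p|⁴` (gain), `K̄ (w, p) = ∫₀¹ K (w - s p, p) ds`.
-/

set_option autoImplicit false

open MeasureTheory Laplacian InnerProductSpace Topology Filter Set
open scoped RealInnerProductSpace ContDiff ENNReal NNReal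

namespace Crest.Agent.N067.Ker

open Crest.Agent.R077

noncomputable section

variable {n : ℕ}

/-- the averaged kernel -/
def Kb (K : EE n × EE n → ℝ≥0∞) (w p : EE n) : ℝ≥0∞ := ∫⁻ s in Icc (0 : ℝ) 1, K (w - s • p, p)











theorem measurable_pdv (z : EE n → ℝ) (i : Fin n) : Measurable (pdv i z) :=
  measurable_fderiv_apply_const ℝ z (ev i)








end

end Crest.Agent.N067.Ker
end

-- ▼ part N067/A/PS
section

/-!
Row 67, STAB tools (helper2): the weak equation of `res μ S` for bounded Lipschitz test functions and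
the parallel-sum inequality `(1/2) ∬ S G S (f - f')² ≤ ∫ (G S)² |∇f|²`.
-/

set_option autoImplicit false

open MeasureTheory Laplacian InnerProductSpace Topology Filter Set
open scoped RealInnerProductSpace ContDiff Gradient NNReal ENNReal

namespace Crest.Agent.N067.Ker

open Crest.Agent.R077

noncomputable section

variable {n : ℕ}

theorem lip_mul {f g : EE n → ℝ} {L K : ℝ≥0} {M N : ℝ} (hf : LipschitzWith L f)
    (hg : LipschitzWith K g) (bf : ∀ x, |f x| ≤ M) (bg : ∀ x, |g x| ≤ N) :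
    ∃ C, LipschitzWith C fun x => f x * g x := by
  refine ⟨(N * L + M * K).toNNReal, LipschitzWith.of_dist_le_mul fun x y => ?_⟩
  have h1 := hf.dist_le_mul x y
  have h2 := hg.dist_le_mul x y
  rw [Real.dist_eq] at h1 h2 ⊢
  rw [show f x * g x - f y * g y = g x * (f x - f y) + f y * (g x - g y) by ring]
  refine (abs_add_le _ _).trans (le_trans ?_
    (mul_le_mul_of_nonneg_right (Real.le_coe_toNNReal _) dist_nonneg))
  rw [abs_mul, abs_mul, add_mul, mul_assoc, mul_assoc]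
  exact add_le_add (mul_le_mul (bg x) h1 (abs_nonneg _) ((abs_nonneg _).trans (bg x)))
    (mul_le_mul (bf y) h2 (abs_nonneg _) ((abs_nonneg _).trans (bf y)))

theorem abs_pdv_le_lip {f : EE n → ℝ} {L : ℝ≥0} (hf : LipschitzWith L f) (i : Fin n) (x : EE n) :
    |pdv i f x| ≤ L := (abs_pdv_le_fderiv f i x).trans (norm_fderiv_le_of_lipschitz ℝ hf)

theorem Bd.exists_lip {C : ℝ} {f : EE n → ℝ} (h : Bd 1 C f) : ∃ L, LipschitzWith L f :=
  ⟨(n * C).toNNReal, lipschitzWith_of_nnnorm_fderiv_le h.1 fun x =>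
    (h.norm_fderiv_le x).trans (Real.le_coe_toNNReal _)⟩

theorem pdv_cv_lip {g f : EE n → ℝ} {L : ℝ≥0} {M : ℝ} (hg : Integrable g) (hf : LipschitzWith L f)
    (hb : ∀ x, |f x| ≤ M) (i : Fin n) : pdv i (cv g f) = cv g (pdv i f) := by
  funext x₀
  have hm := hf.continuous.aestronglyMeasurable (μ := volume)
  have hd : ∀ᵐ z, DifferentiableAt ℝ f (x₀ + z) :=
    (measurePreserving_add_left volume x₀).quasiMeasurePreserving.ae hf.ae_differentiableAt
  obtain ⟨h1, h2⟩ := hasFDerivAt_integral_of_dominated_loc_of_lip' (μ := volume) (s := univ)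
    (F := fun x z => g z * f (x + z)) (F' := fun z => g z • fderiv ℝ f (x₀ + z)) (x₀ := x₀)
    (bound := fun z => |g z| * L) univ_mem (fun x _ => (integrable_cv hg hm hb x).1)
    (integrable_cv hg hm hb x₀)
    (hg.1.smul ((measurable_fderiv ℝ f).comp (measurable_const_add x₀)).aestronglyMeasurable)
    (Eventually.of_forall fun z x _ => by
      rw [← mul_sub, norm_mul, mul_assoc]
      refine mul_le_mul_of_nonneg_left ((hf.norm_sub_le _ _).trans (le_of_eq ?_)) (abs_nonneg _)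
      rw [add_sub_add_right_eq_sub])
    (hg.abs.mul_const _) (hd.mono fun z hz => by
      simpa using (hz.hasFDerivAt.comp x₀ ((hasFDerivAt_id x₀).add_const z)).const_mul (g z))
  unfold pdv
  rw [show fderiv ℝ (cv g f) x₀ = _ from h2.fderiv, ContinuousLinearMap.integral_apply h1]
  rfl

theorem abs_heat_le {s M : ℝ} (hs : 0 < s) {f : EE n → ℝ} (h : ∀ x, |f x| ≤ M) (x : EE n) :
    |cv (hk s) f x| ≤ M := by
  have := abs_cv_le (integrable_hk hs) h x
  simp only [abs_of_pos (hk_pos hs _), integral_hk hs, one_mul] at this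
  exact this

theorem bd_heat_lip {s M : ℝ} (hs : 0 < s) {f : EE n → ℝ} {L : ℝ≥0} (hf : LipschitzWith L f)
    (hb : ∀ x, |f x| ≤ M) : Bd 1 (max M L) (cv (hk s) f) := by
  refine ⟨fun x => (hasFDerivAt_heatP hs hf.continuous.aestronglyMeasurable hb x).differentiableAt,
    fun x => (abs_heat_le hs hb x).trans (le_max_left _ _), fun i => ?_⟩
  rw [pdv_cv_lip (integrable_hk hs) hf hb]
  exact ⟨continuous_iff_continuousAt.2 fun x => (hasFDerivAt_heatP hs
    (measurable_pdv f i).aestronglyMeasurable (abs_pdv_le_lip hf i) x).continuousAt,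
    fun x => (abs_heat_le hs (abs_pdv_le_lip hf i) x).trans (le_max_right _ _)⟩

theorem tendsto_heat {M : ℝ} {w : EE n → ℝ} (hw : Continuous w) (hb : ∀ x, |w x| ≤ M) (x : EE n) :
    Tendsto (fun k : ℕ => cv (hk (1 / ((k : ℝ) + 1))) w x) atTop (𝓝 (w x)) := by
  have h := continuousWithinAt_heat (w := fun y => w (x + y)) le_rfl (by fun_prop)
    (gr_of_bdd fun y => hb _)
  have h1 : Tendsto (fun k : ℕ => 1 / ((k : ℝ) + 1)) atTop (𝓝[Ici 0] 0) :=
    tendsto_nhdsWithin_iff.2 ⟨tendsto_one_div_add_atTop_nhds_zero_nat,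
      Eventually.of_forall fun k => mem_Ici.2 (le_of_lt Nat.one_div_pos_of_nat)⟩
  have h2 := h.tendsto.comp h1
  simp only [Real.sqrt_zero, zero_smul, add_zero, integral_mul_const, integral_hk one_pos,
    one_mul] at h2
  refine h2.congr fun k => ?_
  exact (integral_hk_scale Nat.one_div_pos_of_nat fun y => w (x + y)).symm

theorem tendsto_heat_mul {M : ℝ} {a b : EE n → ℝ} (ha : Integrable a) (hb : Continuous b)
    (hM : ∀ x, |b x| ≤ M) :
    Tendsto (fun k : ℕ => ∫ x, a x * cv (hk (1 / ((k : ℝ) + 1))) b x) atTop (𝓝 (∫ x, a x * b x)) := by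
  refine tendsto_integral_of_dominated_convergence (fun x => |a x| * M) (fun k => ha.1.mul
    (continuous_cv (integrable_hk Nat.one_div_pos_of_nat) hb hM).aestronglyMeasurable)
    (ha.abs.mul_const M) (fun k => Eventually.of_forall fun x => ?_)
    (Eventually.of_forall fun x => (tendsto_heat hb hM x).const_mul _)
  rw [norm_mul]
  exact mul_le_mul_of_nonneg_left (abs_heat_le Nat.one_div_pos_of_nat hM x) (abs_nonneg _)

theorem integral_heat_mul {s M : ℝ} (hs : 0 < s) {a b : EE n → ℝ} (ha : Integrable a)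
    (hb : AEStronglyMeasurable b volume) (hM : ∀ x, |b x| ≤ M) :
    ∫ x, cv (hk s) a x * b x = ∫ x, a x * cv (hk s) b x := by
  rw [integral_mul_cv_of (integrable_ker (integrable_hk hs) ha hb hM)]
  simp only [hk_neg]

/-- WEAK EQUATION for bounded Lipschitz test functions -/
theorem weak_res_lip {μ M N : ℝ} (hμ : 0 < μ) {S ζ : EE n → ℝ} {L : ℝ≥0} (hS : Integrable S)
    (h : ∀ x, |S x| ≤ M) (hζ : LipschitzWith L ζ) (hb : ∀ x, |ζ x| ≤ N) (h0 : Integrable ζ)
    (h1 : ∀ i, Integrable (pdv i ζ)) :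
    (∑ i, ∫ x, pdv i ζ x * pdv i (res μ S) x) + μ * ∫ x, ζ x * res μ S x = ∫ x, ζ x * S x := by
  have hu := bd_one_res hμ hS.1 h
  have key : ∀ k : ℕ, (∑ i, ∫ x, pdv i ζ x * cv (hk (1 / ((k : ℝ) + 1))) (pdv i (res μ S)) x) +
      μ * ∫ x, ζ x * cv (hk (1 / ((k : ℝ) + 1))) (res μ S) x =
      ∫ x, S x * cv (hk (1 / ((k : ℝ) + 1))) ζ x := fun k => by
    have hs : (0 : ℝ) < 1 / ((k : ℝ) + 1) := Nat.one_div_pos_of_nat
    have := weak_res hμ hS.1 h (bd_heat_lip hs hζ hb) (integrable_cv_int (integrable_hk hs) h0)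
      fun i => by
        rw [pdv_cv_lip (integrable_hk hs) hζ hb]
        exact integrable_cv_int (integrable_hk hs) (h1 i)
    simp_rw [pdv_cv_lip (integrable_hk hs) hζ hb, fun i => integral_heat_mul hs (h1 i)
      (hu.pdv i).continuous.aestronglyMeasurable (hu.pdv i).bdd] at this
    rw [integral_heat_mul hs h0 hu.continuous.aestronglyMeasurable hu.bdd] at this
    simpa only [mul_comm (S _)] using this
  have t1 := (tendsto_finsetSum Finset.univ fun i _ =>
    tendsto_heat_mul (h1 i) (hu.pdv i).continuous (hu.pdv i).bdd).add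
    ((tendsto_heat_mul h0 hu.continuous hu.bdd).const_mul μ)
  simp_rw [key] at t1
  simpa only [mul_comm (S _)] using
    tendsto_nhds_unique t1 (tendsto_heat_mul hS hζ.continuous hb)

theorem integrable_pdv_mul {u f : EE n → ℝ} {C N : ℝ} {L : ℝ≥0} (hu : Bd 1 C u) (i0 : Integrable u)
    (i1 : ∀ i, Integrable (pdv i u)) (hf : LipschitzWith L f) (hb : ∀ x, |f x| ≤ N) (i : Fin n) :
    Integrable (pdv i fun x => u x * f x) := by
  refine Integrable.congr (((i1 i).mul_bdd hf.continuous.aestronglyMeasurable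
    (Eventually.of_forall hb)).add (i0.mul_bdd (measurable_pdv f i).aestronglyMeasurable
    (Eventually.of_forall (abs_pdv_le_lip hf i)))) ?_
  filter_upwards [hf.ae_differentiableAt] with x hx
  rw [pdv_mul (hu.1 x) hx]
  rfl

/-- parallel sum, pairing form -/
theorem ps_core {μ M N : ℝ} (hμ : 0 < μ) {S f : EE n → ℝ} {L : ℝ≥0} (hS : Integrable S)
    (h : ∀ x, |S x| ≤ M) (hf : LipschitzWith L f) (hb : ∀ x, |f x| ≤ N) :
    (∫ x, S x * f x ^ 2 * res μ S x) - ∫ x, S x * f x * res μ (fun y => S y * f y) x ≤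
      ∫ x, res μ S x ^ 2 * gsq f x := by
  have mf := hf.continuous.aestronglyMeasurable (μ := volume)
  have hM : 0 ≤ M := (abs_nonneg _).trans (h 0)
  have hT : Integrable fun y => S y * f y := hS.mul_bdd mf (Eventually.of_forall hb)
  have bT : ∀ y, |S y * f y| ≤ M * N := fun y => by
    rw [abs_mul]
    exact mul_le_mul (h y) (hb y) (abs_nonneg _) hM
  set u := res μ S with hu
  set φ := res μ fun y => S y * f y with hφ
  have Bu : Bd 1 _ u := bd_one_res hμ hS.1 h
  have Bφ : Bd 1 _ φ := bd_one_res hμ hT.1 bT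
  have iu : Integrable u := integrable_res hμ hS
  have iu1 : ∀ i, Integrable (pdv i u) := integrable_pdv_res hμ hS h
  have iφ : Integrable φ := integrable_res hμ hT
  have iφ1 : ∀ i, Integrable (pdv i φ) := integrable_pdv_res hμ hT bT
  obtain ⟨Lu, lu⟩ := Bu.exists_lip
  obtain ⟨L1, l1⟩ := lip_mul lu hf Bu.bdd hb
  obtain ⟨L2, l2⟩ := lip_mul hf hf hb hb
  have b2 : ∀ x, |f x * f x| ≤ N * N := fun x => by
    rw [abs_mul]
    exact mul_le_mul (hb x) (hb x) (abs_nonneg _) ((abs_nonneg _).trans (hb x))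
  obtain ⟨L3, l3⟩ := lip_mul lu l2 Bu.bdd b2
  have b1 : ∀ x, |u x * f x| ≤ cR n μ * M * N := fun x => by
    rw [abs_mul]
    exact mul_le_mul (Bu.bdd x) (hb x) (abs_nonneg _) Bu.nonneg
  have b3 : ∀ x, |u x * (f x * f x)| ≤ cR n μ * M * (N * N) := fun x => by
    rw [abs_mul]
    exact mul_le_mul (Bu.bdd x) (b2 x) (abs_nonneg _) Bu.nonneg
  have j1 : Integrable fun x => u x * f x := iu.mul_bdd mf (Eventually.of_forall hb)
  have j3 : Integrable fun x => u x * (f x * f x) :=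
    iu.mul_bdd l2.continuous.aestronglyMeasurable (Eventually.of_forall b2)
  have k1 := integrable_pdv_mul Bu iu iu1 hf hb
  have k3 := integrable_pdv_mul Bu iu iu1 l2 b2
  have E1 := energy_res hμ hT bT
  have E2 := weak_res_lip hμ hT bT l1 b1 j1 k1
  have E3 := weak_res_lip hμ hS h l3 b3 j3 k3
  rw [← hφ] at E1 E2
  rw [← hu] at E3
  have a1 : ∀ i, Integrable fun x => pdv i φ x ^ 2 := fun i =>
    integrable_sq_of_bdd (iφ1 i) (Bφ.pdv i).bdd
  have a2 : ∀ i, Integrable fun x => pdv i (fun x => u x * f x) x * pdv i φ x := fun i =>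
    (k1 i).mul_bdd (Bφ.pdv i).continuous.aestronglyMeasurable (Eventually.of_forall (Bφ.pdv i).bdd)
  have a3 : ∀ i, Integrable fun x => pdv i (fun x => u x * (f x * f x)) x * pdv i u x := fun i =>
    (k3 i).mul_bdd (Bu.pdv i).continuous.aestronglyMeasurable (Eventually.of_forall (Bu.pdv i).bdd)
  have a4 : ∀ i, Integrable fun x => u x ^ 2 * pdv i f x ^ 2 := fun i =>
    (integrable_sq_of_bdd iu Bu.bdd).mul_bdd (c := L ^ 2)
      ((measurable_pdv f i).pow_const 2).aestronglyMeasurable (Eventually.of_forall fun x => by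
        rw [Real.norm_eq_abs, abs_pow]
        exact pow_le_pow_left₀ (abs_nonneg _) (abs_pdv_le_lip hf i x) 2)
  have D : ∀ i, 2 * ∫ x, pdv i (fun x => u x * f x) x * pdv i φ x ≤ (∫ x, pdv i φ x ^ 2) +
      ((∫ x, pdv i (fun x => u x * (f x * f x)) x * pdv i u x) + ∫ x, u x ^ 2 * pdv i f x ^ 2) :=
    fun i => by
      rw [← integral_const_mul, ← integral_add (a3 i) (a4 i), ← integral_add (a1 i)
        (g := fun x => pdv i (fun x => u x * (f x * f x)) x * pdv i u x + u x ^ 2 * pdv i f x ^ 2)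
        ((a3 i).add (a4 i))]
      refine integral_mono_ae ((a2 i).const_mul 2) ((a1 i).add ((a3 i).add (a4 i))) ?_
      filter_upwards [hf.ae_differentiableAt] with x hx
      rw [pdv_mul (Bu.1 x) hx, pdv_mul (g := fun x => f x * f x) (Bu.1 x) (hx.mul hx), pdv_mul hx hx]
      nlinarith [sq_nonneg (pdv i φ x - (pdv i u x * f x + u x * pdv i f x))]
  have c1 := integrable_sq_of_bdd iφ Bφ.bdd
  have c3 : Integrable fun x => u x * (f x * f x) * u x :=
    j3.mul_bdd Bu.continuous.aestronglyMeasurable (Eventually.of_forall Bu.bdd)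
  have D0 : 2 * ∫ x, u x * f x * φ x ≤ (∫ x, φ x ^ 2) + ∫ x, u x * (f x * f x) * u x := by
    rw [← integral_const_mul, ← integral_add c1 c3]
    exact integral_mono ((j1.mul_bdd Bφ.continuous.aestronglyMeasurable
      (Eventually.of_forall Bφ.bdd)).const_mul 2) (c1.add c3) fun x => by
        simp only
        nlinarith [sq_nonneg (φ x - u x * f x)]
  have D1 := Finset.sum_le_sum fun i (_ : i ∈ Finset.univ) => D i
  rw [← Finset.mul_sum, Finset.sum_add_distrib, Finset.sum_add_distrib,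
    ← integral_finsetSum _ fun i _ => a4 i] at D1
  have e1 : ∫ x, S x * f x ^ 2 * u x = ∫ x, u x * f x * (S x * f x) := by
    congr 1; funext x; ring
  have e2 : ∫ x, u x * (f x * f x) * S x = ∫ x, u x * f x * (S x * f x) := by
    congr 1; funext x; ring
  have e3 : ∫ x, S x * f x * φ x = ∫ x, φ x * (S x * f x) := by
    congr 1; funext x; ring
  have e4 : ∫ x, u x ^ 2 * gsq f x = ∫ x, ∑ i, u x ^ 2 * pdv i f x ^ 2 := by
    simp only [gsq, Finset.mul_sum]
  have D2 := mul_le_mul_of_nonneg_left D0 hμ.le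
  rw [e1, e3, e4]
  linarith

theorem integrable_ps {μ M N : ℝ} (hμ : 0 < μ) {S f : EE n → ℝ} (hS : Integrable S)
    (h : ∀ x, |S x| ≤ M) (hf : AEStronglyMeasurable f volume) (hb : ∀ x, |f x| ≤ N) :
    Integrable (fun p : EE n × EE n => S p.1 * Gk μ (p.2 - p.1) * S p.2 * (f p.1 - f p.2) ^ 2)
      (volume.prod volume) :=
  (integrable_ker (integrable_Gk hμ) hS hS.1 h).mul_bdd (c := (N + N) ^ 2)
    ((hf.comp_fst.sub hf.comp_snd).pow 2) (Eventually.of_forall fun p => by
      rw [Real.norm_eq_abs, abs_pow]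
      exact pow_le_pow_left₀ (abs_nonneg _) ((abs_sub _ _).trans (add_le_add (hb _) (hb _))) 2)

/-- expansion of the nonlocal Dirichlet form (measurable `f`) -/
theorem pair_expand {μ M N : ℝ} (hμ : 0 < μ) {S f : EE n → ℝ} (hS : Integrable S)
    (h : ∀ x, |S x| ≤ M) (hf : AEStronglyMeasurable f volume) (hb : ∀ x, |f x| ≤ N) :
    ∫ p : EE n × EE n, S p.1 * Gk μ (p.2 - p.1) * S p.2 * (f p.1 - f p.2) ^ 2 ∂(volume.prod volume)
      = 2 * ((∫ x, S x * f x ^ 2 * res μ S x) - ∫ x, S x * f x * res μ (fun y => S y * f y) x) := by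
  have hM : 0 ≤ M := (abs_nonneg _).trans (h 0)
  have b2 : ∀ x, |f x ^ 2| ≤ N ^ 2 := fun x => by
    rw [abs_pow]
    exact pow_le_pow_left₀ (abs_nonneg _) (hb x) 2
  have hT : Integrable fun y => S y * f y := hS.mul_bdd hf (Eventually.of_forall hb)
  have hQ : Integrable fun y => S y * f y ^ 2 := hS.mul_bdd (hf.pow 2) (Eventually.of_forall b2)
  have bT : ∀ y, |S y * f y| ≤ M * N := fun y => by
    rw [abs_mul]
    exact mul_le_mul (h y) (hb y) (abs_nonneg _) hM
  have bQ : ∀ y, |S y * f y ^ 2| ≤ M * N ^ 2 := fun y => by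
    rw [abs_mul]
    exact mul_le_mul (h y) (b2 y) (abs_nonneg _) hM
  have i1 := integrable_ker (integrable_Gk hμ) hQ hS.1 h
  have i2 := integrable_ker (integrable_Gk hμ) hS hQ.1 bQ
  have i3 := integrable_ker (integrable_Gk hμ) hT hT.1 bT
  have e : ∫ x, S x * f x ^ 2 * res μ S x = ∫ x, S x * res μ (fun y => S y * f y ^ 2) x := by
    rw [integral_mul_res hμ hS hQ.1 bQ]
    simp only [mul_comm (res μ S _)]
  rw [mul_sub, two_mul (∫ x, S x * f x ^ 2 * res μ S x)]
  nth_rewrite 2 [e]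
  rw [integral_res_mul hμ hQ hS.1 h, integral_res_mul hμ hS hQ.1 bQ, integral_res_mul hμ hT hT.1 bT,
    ← integral_add i1 i2, ← integral_const_mul, ← integral_sub (f := fun p : EE n × EE n =>
      S p.1 * f p.1 ^ 2 * Gk μ (p.2 - p.1) * S p.2 + S p.1 * Gk μ (p.2 - p.1) * (S p.2 * f p.2 ^ 2))
      (i1.add i2) (i3.const_mul 2)]
  congr 1
  funext p
  ring

/-- PARALLEL SUM -/
theorem ps {μ M N : ℝ} (hμ : 0 < μ) {S f : EE n → ℝ} {L : ℝ≥0} (hS : Integrable S)
    (h : ∀ x, |S x| ≤ M) (hf : LipschitzWith L f) (hb : ∀ x, |f x| ≤ N) :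
    ∫ p : EE n × EE n, S p.1 * Gk μ (p.2 - p.1) * S p.2 * (f p.1 - f p.2) ^ 2 ∂(volume.prod volume)
      ≤ 2 * ∫ x, res μ S x ^ 2 * gsq f x := by
  rw [pair_expand hμ hS h hf.continuous.aestronglyMeasurable hb]
  linarith [ps_core hμ hS h hf hb]

/-- PARALLEL SUM, `lintegral` form -/
theorem ps_lint {μ M N : ℝ} (hμ : 0 < μ) {S f : EE n → ℝ} {L : ℝ≥0} (hS : Integrable S)
    (h0 : ∀ x, 0 ≤ S x) (h : ∀ x, S x ≤ M) (hf : LipschitzWith L f) (hb : ∀ x, |f x| ≤ N) :
    ∫⁻ x, ∫⁻ y, ENNReal.ofReal (S x * Gk μ (y - x) * S y * (f x - f y) ^ 2) ≤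
      2 * ∫⁻ x, ENNReal.ofReal (res μ S x ^ 2 * gsq f x) := by
  have h' : ∀ x, |S x| ≤ M := fun x => by rw [abs_of_nonneg (h0 x)]; exact h x
  have hI := integrable_ps hμ hS h' hf.continuous.aestronglyMeasurable hb
  rw [← lintegral_prod (fun p : EE n × EE n => ENNReal.ofReal
    (S p.1 * Gk μ (p.2 - p.1) * S p.2 * (f p.1 - f p.2) ^ 2)) hI.1.aemeasurable.ennreal_ofReal,
    ← ofReal_integral_eq_lintegral_ofReal hI (Eventually.of_forall fun p => mul_nonneg
      (mul_nonneg (mul_nonneg (h0 _) (Gk_nonneg _ _)) (h0 _)) (sq_nonneg _))]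
  refine (ENNReal.ofReal_le_ofReal (ps hμ hS h' hf hb)).trans ?_
  rw [ENNReal.ofReal_mul zero_le_two, ENNReal.ofReal_ofNat]
  refine mul_le_mul_right ?_ _
  rw [integral_eq_lintegral_of_nonneg_ae
    (Eventually.of_forall fun x => mul_nonneg (sq_nonneg _) (gsq_nonneg f x))
    (((contDiff_one_res hμ hS.1 h').continuous.measurable.pow_const 2).mul
      (Finset.measurable_sum _ fun i _ => (measurable_pdv f i).pow_const 2)).aestronglyMeasurable]
  exact ENNReal.ofReal_toReal_le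

end

end Crest.Agent.N067.Ker
end

-- ▼ part N067/S/PS
section

/-! Row 67, block STAB (helper2): `PSStmt`. -/

set_option autoImplicit false

namespace Crest.Agent.N067.S

theorem psS (n : ℕ) : PSStmt n := fun _ _ _ _ _ h hi hb hf =>
  Ker.ps_lint two_pos hi (fun x => (h x).1) (fun x => (h x).2) hf hb

end Crest.Agent.N067.S
end

-- ▼ part N067/S/Loc
section

/-!
# Row 67, block STAB (helper41): the parallel sum inequality on a ball
-/

set_option autoImplicit false

open MeasureTheory Laplacian InnerProductSpace Topology Filter Set Metric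
open scoped RealInnerProductSpace ContDiff Gradient ENNReal NNReal

namespace Crest.Agent.N067.S

open Crest.Agent.R077 Crest.Agent.N067.Ker

noncomputable section

variable {n : ℕ}

/-- decay of `G s` along the retraction -/
theorem res_le_exp (hn : 2 ≤ n) {s : EE n → ℝ} {A δ : ℝ} (hs : Measurable s)
    (h0 : ∀ x, 0 ≤ s x ∧ s x ≤ A) {x w : EE n} (hδ : 0 ≤ δ)
    (h : ∀ y, s y ≠ 0 → ‖w - y‖ + δ ≤ ‖x - y‖) :
    res 2 s x ≤ Real.exp (-(√2 * δ)) * res 2 s w := by
  have : Nontrivial (EE n) := Module.nontrivial_of_finrank_pos (R := ℝ) (by simp; omega)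
  have hi : ∀ a : EE n, Integrable fun y => Gk 2 (a - y) * s y := fun a =>
    ((integrable_Gk two_pos).comp_sub_left a).mul_bdd (c := A) hs.aestronglyMeasurable
      (Eventually.of_forall fun y => by rw [Real.norm_of_nonneg (h0 y).1]; exact (h0 y).2)
  rw [res_eq, res_eq, ← integral_const_mul]
  refine integral_mono_ae (hi x) ((hi w).const_mul _) ?_
  filter_upwards [compl_mem_ae_iff.2 (measure_singleton (μ := volume) w)] with y hy
  rcases eq_or_ne (s y) 0 with h1 | h1
  · simp [h1]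
  have h2 := h y h1
  rw [← mul_assoc]
  refine mul_le_mul_of_nonneg_right ((Gk_le_exp hn two_pos (y := w - y)
    (sub_ne_zero.2 (Ne.symm hy)) (by linarith)).trans ?_) (h0 y).1
  refine mul_le_mul_of_nonneg_right (Real.exp_le_exp.2 ?_) (Gk_nonneg _ _)
  nlinarith [Real.sqrt_nonneg 2]

theorem loc (hn : 2 ≤ n) : LocStmt n := by
  intro e l he hl
  obtain ⟨l', R, hl', hR, hRd, hid, hlt, hgeo, hle, hint⟩ := ret n e l he hl
  refine ⟨l', hl', fun c s z A K hs h0 hsupp hz => ?_⟩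
  obtain ⟨g, hg, hzg⟩ := hz.extend_real
  set f : EE n → ℝ := fun w => g (c + R (w - c)) with hf
  have hT : LipschitzWith 1 fun w : EE n => c + R (w - c) := LipschitzWith.of_dist_le_mul
    fun x y => by simpa [dist_eq_norm] using hR.dist_le_mul (x - c) (y - c)
  have hfb : ∀ x, |f x| ≤ |g c| + K * l' := fun x => by
    have h1 := hg.dist_le_mul (c + R (x - c)) c
    rw [Real.dist_eq, dist_eq_norm, add_sub_cancel_left] at h1
    have h2 := mul_le_mul_of_nonneg_left (hlt (x - c)).le K.coe_nonneg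
    have h3 := abs_sub_abs_le_abs_sub (g (c + R (x - c))) (g c)
    simp only [hf]
    linarith
  have hsi : Integrable s := by
    refine (integrableOn_iff_integrable_of_support_subset (s := ball c l) fun x hx => ?_).1 ?_
    · exact not_le.1 fun h => hx (hsupp x h)
    · exact Measure.integrableOn_of_bounded (M := A) measure_ball_lt_top.ne
        hs.aestronglyMeasurable (Eventually.of_forall fun y => by
          rw [Real.norm_of_nonneg (h0 y).1]; exact (h0 y).2)
  have key := psS n s f (max A (|g c| + K * l')) (K * 1) hs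
    (fun x => ⟨(h0 x).1, (h0 x).2.trans (le_max_left _ _)⟩) hsi
    (fun x => (hfb x).trans (le_max_right _ _)) (hg.comp hT)
  have hfz : ∀ x, s x ≠ 0 → z x = f x := fun x hx => by
    have h1 : dist x c < l := not_le.1 fun h => hx (hsupp x h)
    simp only [hf]
    rw [hid _ (by rw [← dist_eq_norm]; exact h1.le), add_sub_cancel]
    exact hzg (h1.trans_le hl')
  have e1 : ∀ x y, s x * Gk 2 (y - x) * s y * (z x - z y) ^ 2 =
      s x * Gk 2 (y - x) * s y * (f x - f y) ^ 2 := fun x y => by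
    rcases eq_or_ne (s x) 0 with h1 | h1
    · simp [h1]
    rcases eq_or_ne (s y) 0 with h2 | h2
    · simp [h2]
    rw [hfz x h1, hfz y h2]
  simp only [e1]
  refine key.trans ?_
  rw [show oR (2 * (1 + e)) = 2 * oR (1 + e) by
    rw [oR, ENNReal.ofReal_mul zero_le_two, ENNReal.ofReal_ofNat], mul_assoc]
  refine mul_le_mul_right ?_ _
  classical
  set H : EE n → ℝ≥0∞ := fun w =>
    if DifferentiableAt ℝ g w then oR (res 2 s w ^ 2 * gsq g w) else ⊤ with hH
  have e2 : ∫⁻ q in ball 0 l', H (c + q) = ∫⁻ x in ball c l', oR (res 2 s x ^ 2 * gsq z x) := by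
    rw [← lintegral_indicator measurableSet_ball, ← lintegral_indicator measurableSet_ball,
      ← lintegral_add_left_eq_self ((ball c l').indicator _) c]
    refine lintegral_congr_ae ?_
    filter_upwards [(measurePreserving_add_left volume c).quasiMeasurePreserving.ae
      (hg.ae_differentiableAt (μ := volume))] with q hq
    by_cases h1 : q ∈ ball (0 : EE n) l'
    · have h2 : c + q ∈ ball c l' := by simpa [dist_eq_norm] using h1
      rw [indicator_of_mem h1, indicator_of_mem h2, hH]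
      simp only [if_pos hq]
      rw [gsq_eq, gsq_eq, (hzg.eventuallyEq_of_mem (isOpen_ball.mem_nhds h2)).gradient_eq]
    · have h2 : c + q ∉ ball c l' := by simpa [dist_eq_norm] using h1
      rw [indicator_of_notMem h1, indicator_of_notMem h2]
  rw [← e2, ← lintegral_add_left_eq_self _ c]
  refine le_trans (lintegral_mono_ae ?_) (hint fun q => H (c + q))
  filter_upwards [hRd] with p hp
  by_cases h1 : DifferentiableAt ℝ g (c + R p)
  swap
  · simp only [hH, if_neg h1]
    rw [ENNReal.mul_top (ENNReal.ofReal_pos.2 (Real.exp_pos _)).ne']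
    exact le_top
  simp only [hH, if_pos h1]
  rw [oR, oR, oR, ← ENNReal.ofReal_mul (Real.exp_pos _).le, ← mul_assoc]
  refine ENNReal.ofReal_le_ofReal (mul_le_mul ?_ ?_ (gsq_nonneg _ _) (by positivity))
  · have h2 := res_le_exp hn hs h0 (x := c + p) (w := c + R p) (δ := (‖p‖ - ‖R p‖) / 2)
      (by linarith [hle p]) fun y hy => by
        have h3 : dist y c < l := not_le.1 fun h => hy (hsupp y h)
        have := hgeo p (y - c) (by rw [← dist_eq_norm]; exact h3.le)
        rwa [show R p - (y - c) = c + R p - y by abel, show p - (y - c) = c + p - y by abel] at this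
    refine (pow_le_pow_left₀ (res_nonneg 2 (fun x => (h0 x).1) _) h2 2).trans (le_of_eq ?_)
    rw [mul_pow, ← Real.exp_nat_mul]
    congr 2
    push_cast
    ring
  · have d1 : DifferentiableAt ℝ (fun w : EE n => c + R (w - c)) (c + p) := by
      refine (DifferentiableAt.comp (g := R) (f := fun w => w - c) _ ?_ (by fun_prop)).const_add c
      rwa [add_sub_cancel_left]
    have d2 : DifferentiableAt ℝ g (c + R (c + p - c)) := by rwa [add_sub_cancel_left]
    rw [gsq_eq, gsq_eq, St.norm_grad, St.norm_grad]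
    refine pow_le_pow_left₀ (norm_nonneg _) ?_ 2
    have e3 := fderiv_comp (c + p) d2 d1
    rw [add_sub_cancel_left] at e3
    rw [show f = g ∘ fun w : EE n => c + R (w - c) from rfl, e3]
    exact (ContinuousLinearMap.opNorm_comp_le _ _).trans (mul_le_of_le_one_right (norm_nonneg _)
      (by simpa using norm_fderiv_le_of_lipschitz ℝ hT))

end

end Crest.Agent.N067.S
end

-- ▼ part N067/S/Near
section

/-!
# Row 67, block STAB (helper62): the leaf NEAR from LOC, average over the centres of the balls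
-/

set_option autoImplicit false

open MeasureTheory Laplacian InnerProductSpace Topology Filter Set Metric
open scoped RealInnerProductSpace ContDiff Gradient ENNReal NNReal

namespace Crest.Agent.N067.S

open Crest.Agent.R077 Crest.Agent.N067.Ker Crest.Agent.N067.M

noncomputable section

variable {n : ℕ} {v : EE n → ℝ}

namespace Nr

theorem SS_mem (hv : Sol v) (x : EE n) : 0 ≤ SS v x ∧ SS v x ≤ 3 := by
  have h1 : psi v x ^ 2 ≤ 1 := pow_le_one₀ (hv.psi_pos x).le (psi_le_one v x)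
  have := tt_le_one v x
  have := hv.tt_nonneg x
  unfold SS
  exact ⟨mul_nonneg (sq_nonneg _) (by linarith), by nlinarith [sq_nonneg (psi v x)]⟩

theorem measurable_SS (hv : Sol v) : Measurable (SS v) :=
  (hv.psi_sm.continuous.measurable.pow_const 2).mul
    (measurable_const.sub hv.tt_sm.continuous.measurable)

theorem oR_res {s : EE n → ℝ} {A : ℝ} (hs : Measurable s) (h : ∀ x, 0 ≤ s x ∧ s x ≤ A) (x : EE n) :
    oR (res 2 s x) = ∫⁻ y, oR (Gk 2 (y - x) * s y) := by
  rw [res, cv_eq]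
  exact ofReal_integral_eq_lintegral_ofReal
    (((integrable_Gk two_pos).comp_sub_right x).mul_bdd (c := A) hs.aestronglyMeasurable
      (Eventually.of_forall fun y => by rw [Real.norm_eq_abs, abs_of_nonneg (h y).1]; exact (h y).2))
    (Eventually.of_forall fun y => mul_nonneg (Gk_nonneg _ _) (h y).1)

theorem lint_SS (hv : Sol v) (x : EE n) : ∫⁻ y, oR (Gk 2 (y - x) * SS v y) = oR (psi v x) := by
  rw [← oR_res (measurable_SS hv) (SS_mem hv), psi_eq_res hv]
  rfl

open Classical in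
/-- the source `S` cut to the band and to a ball -/
def sc (v : EE n → ℝ) (T l : ℝ) (c x : EE n) : ℝ :=
  if |dd v x| ≤ T ∧ dist x c < l then SS v x else 0

variable {T l : ℝ}

theorem sc_mem (hv : Sol v) (c x : EE n) : 0 ≤ sc v T l c x ∧ sc v T l c x ≤ SS v x := by
  unfold sc
  split_ifs
  · exact ⟨(SS_mem hv x).1, le_rfl⟩
  · exact ⟨le_rfl, (SS_mem hv x).1⟩

theorem measurable_sc (hv : Sol v) {α : Type*} [MeasurableSpace α] {c x : α → EE n}
    (hc : Measurable c) (hx : Measurable x) : Measurable fun a => sc v T l (c a) (x a) :=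
  Measurable.ite ((measurableSet_le (hv.dd_sm.continuous.measurable.comp hx).abs
    measurable_const).inter (measurableSet_lt (hx.dist hc) measurable_const))
    ((measurable_SS hv).comp hx) measurable_const

theorem lint_sc (hv : Sol v) (x y : EE n) :
    ∫⁻ c, oR (Gk 2 (y - x) * sc v T l c y) ≤
      oR (Gk 2 (y - x) * SS v y) * volume (ball (0 : EE n) l) := by
  rw [← Measure.addHaar_ball_center volume y, ← lintegral_indicator_const measurableSet_ball]
  refine lintegral_mono fun c => ?_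
  by_cases h : c ∈ ball y l
  · rw [indicator_of_mem h]
    exact ENNReal.ofReal_le_ofReal
      (mul_le_mul_of_nonneg_left (sc_mem hv c y).2 (Gk_nonneg _ _))
  · rw [sc, if_neg fun h' => h (mem_ball'.2 h'.2)]
    simp

/-- the average over the centres of the squared potentials -/
theorem avg_res (hv : Sol v) {g : EE n → ℝ} (hg : Measurable g) (h0 : ∀ x, 0 ≤ g x)
    (U : Set (EE n)) : ∫⁻ c, ∫⁻ x in U, oR (res 2 (sc v T l c) x ^ 2 * g x) ≤
      volume (ball (0 : EE n) l) * ∫⁻ x in U, oR (psi v x ^ 2 * g x) := by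
  have mG := measurable_Gk (n := n) 2
  have mp := hv.psi_sm.continuous.measurable
  have e : ∀ c x, oR (res 2 (sc v T l c) x) = ∫⁻ y, oR (Gk 2 (y - x) * sc v T l c y) := fun c x =>
    oR_res (measurable_sc hv measurable_const measurable_id)
      (fun y => ⟨(sc_mem hv c y).1, (sc_mem hv c y).2.trans (SS_mem hv y).2⟩) x
  have h1 : ∀ c x, oR (res 2 (sc v T l c) x ^ 2 * g x) ≤
      oR (psi v x * g x) * ∫⁻ y, oR (Gk 2 (y - x) * sc v T l c y) := by
    intro c x
    have r0 : 0 ≤ res 2 (sc v T l c) x := res_nonneg 2 (fun y => (sc_mem hv c y).1) x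
    have r1 : res 2 (sc v T l c) x ≤ psi v x := by
      rw [← ENNReal.ofReal_le_ofReal_iff (hv.psi_pos x).le, ← oR, e, ← oR, ← lint_SS hv]
      exact lintegral_mono fun y => ENNReal.ofReal_le_ofReal
        (mul_le_mul_of_nonneg_left (sc_mem hv c y).2 (Gk_nonneg _ _))
    rw [← e, ← ENNReal.ofReal_mul (mul_nonneg (hv.psi_pos x).le (h0 x))]
    refine ENNReal.ofReal_le_ofReal ?_
    nlinarith [mul_le_mul_of_nonneg_right r1 (mul_nonneg r0 (h0 x))]
  have m3 : Measurable fun p : (EE n × EE n) × EE n =>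
      oR (Gk 2 (p.2 - p.1.2) * sc v T l p.1.1 p.2) :=
    ((mG.comp (by fun_prop)).mul (measurable_sc hv (by fun_prop) measurable_snd)).ennreal_ofReal
  calc _ ≤ ∫⁻ c, ∫⁻ x in U, oR (psi v x * g x) * ∫⁻ y, oR (Gk 2 (y - x) * sc v T l c y) :=
        lintegral_mono fun c => lintegral_mono fun x => h1 c x
    _ = ∫⁻ x in U, ∫⁻ c, oR (psi v x * g x) * ∫⁻ y, oR (Gk 2 (y - x) * sc v T l c y) :=
        lintegral_lintegral_swap (Measurable.mul (by fun_prop) m3.lintegral_prod_right').aemeasurable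
    _ ≤ ∫⁻ x in U, volume (ball (0 : EE n) l) * oR (psi v x ^ 2 * g x) := by
        refine lintegral_mono fun x => ?_
        rw [lintegral_const_mul' _ _ ENNReal.ofReal_ne_top, lintegral_lintegral_swap
          (((mG.comp (by fun_prop)).mul
            (measurable_sc hv measurable_fst measurable_snd)).ennreal_ofReal).aemeasurable]
        refine (mul_le_mul_right (lintegral_mono fun y => lint_sc hv x y) _).trans (le_of_eq ?_)
        rw [lintegral_mul_const' _ _ measure_ball_lt_top.ne, lint_SS hv, ← mul_assoc,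
          ← ENNReal.ofReal_mul (mul_nonneg (hv.psi_pos x).le (h0 x)), mul_comm]
        congr 2
        ring
    _ = _ := lintegral_const_mul' _ _ measure_ball_lt_top.ne

/-- the average over the centres of the cut forms -/
theorem avg_form (hv : Sol v) {z : EE n → ℝ} (hz : Measurable z) {r L : ℝ} (hl : r + L ≤ l) :
    volume (ball (0 : EE n) r) * ∫⁻ x, ∫⁻ y, ind (|dd v x| ≤ T ∧ |dd v y| ≤ T ∧ dist x y ≤ L) *
        oR (SS v x * Gk 2 (y - x) * SS v y * (z x - z y) ^ 2) ≤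
      ∫⁻ c, ∫⁻ x, ∫⁻ y, oR (sc v T l c x * Gk 2 (y - x) * sc v T l c y * (z x - z y) ^ 2) := by
  have mG := measurable_Gk (n := n) 2
  have m3 : ∀ {α : Type} [MeasurableSpace α] {c x y : α → EE n}, Measurable c → Measurable x →
      Measurable y → Measurable fun a => oR (sc v T l (c a) (x a) * Gk 2 (y a - x a) *
        sc v T l (c a) (y a) * (z (x a) - z (y a)) ^ 2) := fun hc hx hy =>
    ((((measurable_sc hv hc hx).mul (mG.comp (hy.sub hx))).mul (measurable_sc hv hc hy)).mul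
      (((hz.comp hx).sub (hz.comp hy)).pow_const 2)).ennreal_ofReal
  refine le_of_le_of_eq ?_ (lintegral_lintegral_swap (m3 (α := (EE n × EE n) × EE n)
    measurable_fst.fst measurable_fst.snd measurable_snd).lintegral_prod_right'.aemeasurable).symm
  rw [← lintegral_const_mul' _ _ measure_ball_lt_top.ne]
  refine lintegral_mono fun x => ?_
  refine le_of_le_of_eq ?_ (lintegral_lintegral_swap (m3 (α := EE n × EE n) measurable_fst
    measurable_const measurable_snd).aemeasurable).symm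
  rw [← lintegral_const_mul' _ _ measure_ball_lt_top.ne]
  refine lintegral_mono fun y => ?_
  rw [mul_left_comm]
  refine ind_mul_le fun ⟨hx, hy, hd⟩ => ?_
  rw [← Measure.addHaar_ball_center volume x, mul_comm, ← lintegral_indicator_const measurableSet_ball]
  refine lintegral_mono fun c => ?_
  by_cases hc : c ∈ ball x r
  swap
  · simp [indicator_of_notMem hc]
  rw [indicator_of_mem hc]
  have h1 : dist x c < r := mem_ball'.1 hc
  have h2 := dist_triangle_left y c x
  have h3 := dist_nonneg (x := x) (y := y)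
  rw [sc, sc, if_pos ⟨hx, by linarith⟩, if_pos ⟨hy, by linarith⟩]

end Nr

theorem near (hL : LocStmt n) : NearStmt n := by
  intro e T L he hL0
  set e1 := min e 1 / 3 with he1
  have e0 : 0 < e1 := by positivity
  have e2 : (1 + e1) * (1 + e1) ≤ 1 + e := by
    have := min_le_left e 1
    have := min_le_right e 1
    nlinarith
  obtain ⟨θ, hθ1, hθ⟩ : ∃ θ : ℝ, 1 < θ ∧ θ ^ n ≤ 1 + e1 := by
    have h : ∀ᶠ θ : ℝ in 𝓝[>] 1, θ ^ n ≤ 1 + e1 := nhdsWithin_le_nhds
      (((continuous_pow n).tendsto' (1 : ℝ) 1 (one_pow n)).eventually (Iic_mem_nhds (by linarith)))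
    obtain ⟨θ, h1, h2⟩ := (h.and self_mem_nhdsWithin).exists
    exact ⟨θ, h2, h1⟩
  set r := L / (θ - 1) with hr
  have r0 : 0 < r := div_pos hL0 (by linarith)
  have hl : r + L = θ * r := by
    have : (θ - 1) * r = L := mul_div_cancel₀ _ (by linarith)
    linarith
  obtain ⟨l', hl', hL⟩ := hL e1 (θ * r) e0 (by positivity)
  refine ⟨T + θ * r + l' + 1, by linarith, fun v z hv hz hlip => ?_⟩
  set U := {x | |dd v x| < T + θ * r + l' + 1} with hU
  have h1 : ∀ c, ∫⁻ x, ∫⁻ y, oR (Nr.sc v T (θ * r) c x * Gk 2 (y - x) * Nr.sc v T (θ * r) c y *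
      (z x - z y) ^ 2) ≤
      oR (2 * (1 + e1)) * ∫⁻ x in U, oR (res 2 (Nr.sc v T (θ * r) c) x ^ 2 * gsq z x) := by
    intro c
    by_cases hw : ∃ w, |dd v w| ≤ T ∧ dist w c < θ * r
    · obtain ⟨w, hw1, hw2⟩ := hw
      have hs : closedBall c l' ⊆ U := fun u hu => by
        have a1 := hv.abs_dd_sub_le u w
        have a2 := dist_triangle_right u w c
        have a3 := abs_sub_abs_le_abs_sub (dd v u) (dd v w)
        rw [← dist_eq_norm] at a1
        change |dd v u| < T + θ * r + l' + 1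
        linarith [mem_closedBall.1 hu]
      obtain ⟨K, hK⟩ := (hlip.mono hs).exists_lipschitzOnWith_of_compact (isCompact_closedBall c l')
      refine (hL c _ z 3 K (Nr.measurable_sc hv measurable_const measurable_id)
        (fun x => ⟨(Nr.sc_mem hv c x).1, (Nr.sc_mem hv c x).2.trans (Nr.SS_mem hv x).2⟩)
        (fun x hx => if_neg fun h => h.2.not_ge hx) (hK.mono ball_subset_closedBall)).trans ?_
      exact mul_le_mul_right (lintegral_mono_set (ball_subset_closedBall.trans hs)) _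
    · have : ∀ x, Nr.sc v T (θ * r) c x = 0 := fun x => if_neg fun h => hw ⟨x, h⟩
      simp [this]
  have mg : Measurable (gsq z) := Finset.measurable_sum _ fun i _ =>
    (measurable_fderiv_apply_const ℝ z (ev i)).pow_const 2
  have h2 := (Nr.avg_form (T := T) hv hz hl.le).trans (lintegral_mono h1)
  rw [lintegral_const_mul' _ _ ENNReal.ofReal_ne_top] at h2
  have h3 := h2.trans (mul_le_mul_right (Nr.avg_res hv mg (gsq_nonneg z) U) _)
  have h4 : volume (ball (0 : EE n) (θ * r)) ≤ oR (1 + e1) * volume (ball (0 : EE n) r) := by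
    rw [Measure.addHaar_ball_mul_of_pos _ _ (by linarith), finrank_euclideanSpace_fin]
    exact mul_le_mul_left (ENNReal.ofReal_le_ofReal hθ) _
  rw [← ENNReal.mul_le_mul_iff_right (measure_ball_pos volume (0 : EE n) r0).ne'
    measure_ball_lt_top.ne]
  refine h3.trans ((mul_le_mul_right (mul_le_mul_left h4 _) _).trans ?_)
  rw [← mul_assoc, ← mul_assoc, ← mul_assoc, ← ENNReal.ofReal_mul (by positivity),
    mul_comm (volume _)]
  exact mul_le_mul_left (mul_le_mul_left (ENNReal.ofReal_le_ofReal (by linarith)) _) _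

end

end Crest.Agent.N067.S
end

-- ▼ part N067/S/TL0

/-!
# Row 67, block STAB: the leaves TL0 and TG (helper98, task 817)
-/

set_option autoImplicit false

open MeasureTheory Laplacian InnerProductSpace Topology Filter Set Metric
open scoped RealInnerProductSpace ContDiff Gradient ENNReal NNReal

namespace Crest.Agent.N067.S

open Crest.Agent.R077 Crest.Agent.N067.Ker Crest.Agent.N067.M Crest.Agent.N067.V

noncomputable section

variable {n : ℕ}

namespace TL0

/-- Taylor's bound from a bound of the Hessian on a ball -/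
theorem abs_tay_le_loc {f : EE n → ℝ} (hf : ContDiff ℝ ∞ f) {C : ℝ} (p x : EE n)
    (h : ∀ w ∈ closedBall x ‖p‖, ‖hb f w‖ ≤ C) : |tay f p x| ≤ C * ‖p‖ ^ 2 := by
  have hx : x ∈ closedBall x ‖p‖ := mem_closedBall_self (norm_nonneg p)
  have h6 := (convex_closedBall x ‖p‖).norm_image_sub_le_of_norm_fderiv_le' (f := f)
    (φ := fderiv ℝ f x) (C := C * ‖p‖) (fun z _ => hf.differentiable (by simp) z)
    (fun z hz => ((convex_closedBall x ‖p‖).norm_image_sub_le_of_norm_fderiv_le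
      (fun w _ => diff_fderiv hf w) h hx hz).trans
        (mul_le_mul_of_nonneg_left (mem_closedBall_iff_norm.1 hz)
          ((norm_nonneg (hb f x)).trans (h x hx))))
    hx (show x + p ∈ _ by simp)
  rw [add_sub_cancel_left, Real.norm_eq_abs, abs_sub_comm] at h6
  rw [tay, sq, ← mul_assoc]
  convert h6 using 2
  ring

theorem abs_tay_le_two {v : EE n → ℝ} (hv : Sol v) (p x : EE n) :
    |tay (dd v) p x| ≤ 2 * ‖p‖ := by
  have h1 := hv.abs_dd_sub_le x (x + p)
  rw [sub_add_cancel_left, norm_neg] at h1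
  have h2 : |fderiv ℝ (dd v) x p| ≤ ‖p‖ := by
    rw [← N067.inner_grad]
    exact (abs_real_inner_le_norm _ _).trans
      (mul_le_of_le_one_left (norm_nonneg p) (hv.norm_grad_dd_le x))
  have e : tay (dd v) p x = (dd v x - dd v (x + p)) + fderiv ℝ (dd v) x p := by
    rw [tay]; ring
  rw [e]
  linarith [abs_add_le (dd v x - dd v (x + p)) (fderiv ℝ (dd v) x p)]

theorem exp_neg_inv_le {κ : ℝ} (hκ : 0 < κ) : Real.exp (-(1 / κ)) ≤ κ := by
  rw [Real.exp_neg, inv_le_comm₀ (Real.exp_pos _) hκ]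
  have := Real.add_one_le_exp (1 / κ)
  rw [one_div] at this ⊢
  linarith

theorem num {B H κ t : ℝ} (hH : 0 ≤ H) (hκ : 0 < κ) (ht : 0 ≤ t)
    (h : κ ^ 2 ≤ B ^ 2 * (Real.exp (H * (2 / κ)) * t)) :
    Real.exp (-((2 + 2 * H + B ^ 2) / κ) - (2 + 2 * H + B ^ 2)) ≤ t := by
  have e1 := pow_le_pow_left₀ (Real.exp_pos _).le (exp_neg_inv_le hκ) 2
  have e2 : B ^ 2 ≤ Real.exp (B ^ 2) := by linarith [Real.add_one_le_exp (B ^ 2)]
  have E0 := Real.exp_pos (H * (2 / κ))
  have e3 : Real.exp (B ^ 2) * (Real.exp (H * (2 / κ)) *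
      Real.exp (-((2 + 2 * H + B ^ 2) / κ) - (2 + 2 * H + B ^ 2))) ≤
      Real.exp (-(1 / κ)) ^ 2 := by
    rw [← Real.exp_add, ← Real.exp_add, ← Real.exp_nat_mul]
    refine Real.exp_le_exp.2 ?_
    have i0 : 0 < κ⁻¹ := inv_pos.2 hκ
    rw [div_eq_mul_inv (2 + 2 * H + B ^ 2), div_eq_mul_inv 2, one_div]
    push_cast
    nlinarith [mul_nonneg (sq_nonneg B) i0.le]
  have e4 : B ^ 2 * (Real.exp (H * (2 / κ)) * t) ≤
      Real.exp (B ^ 2) * (Real.exp (H * (2 / κ)) * t) :=
    mul_le_mul_of_nonneg_right e2 (mul_nonneg E0.le ht)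
  exact le_of_mul_le_mul_left (le_of_mul_le_mul_left (e3.trans (e1.trans (h.trans e4)))
    (Real.exp_pos _)) E0

/-- `ψ` is bounded below on a band -/
theorem psi_ge {v : EE n → ℝ} (hv : Sol v) {x : EE n} {T : ℝ} (h : |dd v x| ≤ T) :
    1 / Real.cosh (T / √2) ^ 2 ≤ psi v x := by
  rw [hv.psi_eq_cosh]
  refine one_div_le_one_div_of_le (pow_pos (Real.cosh_pos _) 2)
    (pow_le_pow_left₀ (Real.cosh_pos _).le (Real.cosh_le_cosh.2 ?_) 2)
  rw [abs_div, abs_div]
  exact div_le_div_of_nonneg_right (h.trans (le_abs_self T)) (abs_nonneg _)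

/-- the weighted mass of the kernel is positive -/
theorem mass_pos (n : ℕ) (a : ℝ) :
    0 < ∫⁻ z : EE n, oR (Gk 2 z * Real.exp (-(a * ‖z‖))) := by
  have hm : Measurable fun z : EE n => oR (Gk 2 z * Real.exp (-(a * ‖z‖))) :=
    ((measurable_Gk 2).mul (by fun_prop)).ennreal_ofReal
  rw [pos_iff_ne_zero, Ne, lintegral_eq_zero_iff hm]
  intro h0
  have : ∀ᵐ _z : EE n, False := by
    filter_upwards [h0, Gk_pos_ae (n := n) two_pos] with z h1 h2
    exact absurd (ENNReal.ofReal_eq_zero.1 h1) (not_le.2 (mul_pos h2 (Real.exp_pos _)))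
  rw [eventually_false_iff_eq_bot, ae_eq_bot] at this
  exact NeZero.ne _ this

/-- the pointwise inequality behind TG -/
theorem pt {v : EE n → ℝ} (hv : Sol v) {H p s : ℝ} (hp : 0 ≤ p) (hs : 0 ≤ s) {x y : EE n}
    (hx : p ≤ psi v x) (hH : tt v x ≤ Real.exp (H * ‖y - x‖) * tt v y) :
    p ^ 4 * (tt v x * s) * (Gk 2 (y - x) * Real.exp (-((2 * √2 + H) * ‖y - x‖))) ≤
      psi v x ^ 2 * Gk 2 (y - x) * psi v y ^ 2 * (tt v y * s) := by
  have h1 := hv.psi_le x y
  rw [dist_comm, dist_eq_norm] at h1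
  have h2 : p ^ 2 ≤ psi v x ^ 2 := pow_le_pow_left₀ hp hx 2
  have h3 : p ^ 2 ≤ (Real.exp (√2 * ‖y - x‖) * psi v y) ^ 2 := pow_le_pow_left₀ hp (hx.trans h1) 2
  have e : Real.exp (√2 * ‖y - x‖) ^ 2 * Real.exp (H * ‖y - x‖) *
      Real.exp (-((2 * √2 + H) * ‖y - x‖)) = 1 := by
    rw [← Real.exp_nat_mul, ← Real.exp_add, ← Real.exp_add, Real.exp_eq_one_iff]
    push_cast
    ring
  have g0 := Gk_nonneg 2 (y - x)
  have t0 := hv.tt_nonneg x
  have t1 := hv.tt_nonneg y
  calc p ^ 4 * (tt v x * s) * (Gk 2 (y - x) * Real.exp (-((2 * √2 + H) * ‖y - x‖)))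
      = p ^ 2 * p ^ 2 * (tt v x * s) *
        (Gk 2 (y - x) * Real.exp (-((2 * √2 + H) * ‖y - x‖))) := by ring
    _ ≤ psi v x ^ 2 * (Real.exp (√2 * ‖y - x‖) * psi v y) ^ 2 *
        (Real.exp (H * ‖y - x‖) * tt v y * s) *
        (Gk 2 (y - x) * Real.exp (-((2 * √2 + H) * ‖y - x‖))) := by gcongr
    _ = (Real.exp (√2 * ‖y - x‖) ^ 2 * Real.exp (H * ‖y - x‖) *
        Real.exp (-((2 * √2 + H) * ‖y - x‖))) *
        (psi v x ^ 2 * Gk 2 (y - x) * psi v y ^ 2 * (tt v y * s)) := by ring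
    _ = _ := by rw [e, one_mul]

end TL0

open TL0

/-- **TL0** -/
theorem tl0 (n : ℕ) : TL0Stmt n := by
  obtain ⟨B, hB, h1⟩ := hk_B n 0
  obtain ⟨H, hH, h2⟩ := hk_har n
  refine ⟨2 + 2 * H + B ^ 2, by nlinarith [sq_nonneg B], fun v x κ hv hκ hF => ?_⟩
  obtain ⟨z, hz⟩ := not_forall.1 hF
  rw [not_le] at hz
  set p := z - x with hp
  have e : dd v z - dd v x - ⟪∇ (dd v) x, p⟫ = -tay (dd v) p x := by
    rw [tay, N067.inner_grad, hp, add_sub_cancel]; ring
  rw [e, abs_neg] at hz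
  have p0 : 0 < ‖p‖ := norm_pos_iff.2 fun h0 => by
    rw [h0] at hz; simp [tay] at hz
  have pk : ‖p‖ ≤ 2 / κ := by
    rw [le_div_iff₀ hκ]
    nlinarith [hz.trans_le (abs_tay_le_two hv p x)]
  have t0 := hv.tt_nonneg x
  have hb1 := abs_tay_le_loc hv.dd_sm (C := B * √(Real.exp (H * (2 / κ)) * tt v x)) p x
    fun w hw => by
      rw [norm_hb]
      refine (h1 v hv w).trans (mul_le_mul_of_nonneg_left (Real.sqrt_le_sqrt
        ((h2 v hv x w).trans (mul_le_mul_of_nonneg_right (Real.exp_le_exp.2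
          (mul_le_mul_of_nonneg_left ?_ hH)) t0))) hB)
      rw [norm_sub_rev]
      exact (mem_closedBall_iff_norm.1 hw).trans pk
  have k1 : κ ≤ B * √(Real.exp (H * (2 / κ)) * tt v x) :=
    (lt_of_mul_lt_mul_right (hz.trans_le hb1) (sq_nonneg _)).le
  have k2 := pow_le_pow_left₀ hκ.le k1 2
  rw [mul_pow, Real.sq_sqrt (mul_nonneg (Real.exp_pos _).le t0)] at k2
  exact num hH hκ t0 k2

/-- **TG** -/
theorem tg (n : ℕ) : TGStmt n := by
  intro T
  obtain ⟨H, -, h2⟩ := hk_har n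
  set p : ℝ := 1 / Real.cosh (T / √2) ^ 2 with hp
  have p0 : 0 < p := one_div_pos.2 (pow_pos (Real.cosh_pos _) 2)
  set I := ∫⁻ z : EE n, oR (Gk 2 z * Real.exp (-((2 * √2 + H) * ‖z‖))) with hI
  obtain ⟨m, m0, mI⟩ : ∃ m : ℝ, 0 < m ∧ oR m ≤ I := by
    obtain ⟨r, r0, rI⟩ := ENNReal.lt_iff_exists_real_btwn.1 (mass_pos n (2 * √2 + H))
    exact ⟨r, ENNReal.ofReal_pos.1 rI.1, rI.2.le⟩
  refine ⟨p ^ 4 * m, by positivity, fun v f hv _ => ?_⟩
  rw [It, Tt, ← lintegral_const_mul' _ _ ENNReal.ofReal_ne_top]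
  refine lintegral_mono fun x => ?_
  beta_reduce
  rw [mul_left_comm]
  refine ind_mul_le fun hx => ?_
  have s0 : 0 ≤ tt v x * f x ^ 2 := mul_nonneg (hv.tt_nonneg x) (sq_nonneg _)
  calc oR (p ^ 4 * m) * oR (tt v x * f x ^ 2) = oR (p ^ 4 * (tt v x * f x ^ 2)) * oR m := by
        rw [← ENNReal.ofReal_mul (by positivity), ← ENNReal.ofReal_mul (by positivity)]
        congr 1; ring
    _ ≤ oR (p ^ 4 * (tt v x * f x ^ 2)) * I := by gcongr
    _ = ∫⁻ y, oR (p ^ 4 * (tt v x * f x ^ 2)) *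
          oR (Gk 2 (y - x) * Real.exp (-((2 * √2 + H) * ‖y - x‖))) := by
        rw [lintegral_const_mul' _ _ ENNReal.ofReal_ne_top, hI, lintegral_sub_right_eq_self
          (fun z : EE n => oR (Gk 2 z * Real.exp (-((2 * √2 + H) * ‖z‖)))) x]
    _ ≤ _ := lintegral_mono fun y => by
        beta_reduce
        rw [kk, ← ENNReal.ofReal_mul (by positivity), ← ENNReal.ofReal_mul
          (mul_nonneg (mul_nonneg (sq_nonneg _) (Gk_nonneg _ _)) (sq_nonneg _))]
        exact ENNReal.ofReal_le_ofReal (pt hv p0.le (sq_nonneg _) (psi_ge hv hx) (h2 v hv y x))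

end

end Crest.Agent.N067.S
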