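import Crest.Agent.N067.A.Dual
import Crest.Agent.N067.A.Stab
import Crest.Agent.N067.S.Defs

/-!
Row 67, block STAB (helper8): the two exact nonlocal inequalities.  `k = ψ² G ψ²`,
`nsz : 2 ∬ k (N N' - n·n') f² ≤ ∬ k N N' (f - f')²` and `d1 : ∬ k t' f² ≤ (3/2) ∬ k (f - f')²`.
-/

set_option autoImplicit false

open MeasureTheory Laplacian InnerProductSpace Topology Filter Set
open scoped RealInnerProductSpace ContDiff Gradient ENNReal

namespace Crest.Agent.N067.S.Nz

open Crest.Agent.R077 Crest.Agent.N067.Ker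

noncomputable section

variable {n : ℕ} {v f : EE n → ℝ} {M : ℝ}

/-- the pair kernel on the product -/
def Kp (v : EE n → ℝ) (p : EE n × EE n) : ℝ := psi v p.1 ^ 2 * Gk 2 (p.2 - p.1) * psi v p.2 ^ 2

/-- pair integrals -/
def II (v : EE n → ℝ) (h : EE n × EE n → ℝ) : ℝ := ∫ p, Kp v p * h p ∂(volume.prod volume)

/-- admissible test functions -/
structure Ad (v f : EE n → ℝ) (M : ℝ) : Prop where
  ms : Measurable f
  bd : ∀ x, |f x| ≤ M
  ig : Integrable fun x => psi v x ^ 2 * f x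

/-- pair functions dominated by `f` -/
structure Dom (f : EE n → ℝ) (h : EE n × EE n → ℝ) : Prop where
  ms : Measurable h
  bd : ∃ C : ℝ, ∀ p, |h p| ≤ C * (|f p.1| + |f p.2|)

theorem Kp_nonneg (v : EE n → ℝ) (p : EE n × EE n) : 0 ≤ Kp v p :=
  mul_nonneg (mul_nonneg (sq_nonneg _) (Gk_nonneg _ _)) (sq_nonneg _)

theorem Kp_swap (v : EE n → ℝ) (p : EE n × EE n) : Kp v p.swap = Kp v p := by
  simp only [Kp, Prod.fst_swap, Prod.snd_swap, Gk_sub_comm 2 p.1 p.2]; ring

theorem measurable_Kp (hv : Sol v) : Measurable (Kp v) := by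
  have h1 := hv.psi_sm.continuous.measurable
  have h2 := measurable_Gk (n := n) 2
  unfold Kp
  fun_prop

theorem psi_sq_le (hv : Sol v) (x : EE n) : |psi v x ^ 2| ≤ 1 := by
  rw [abs_of_nonneg (sq_nonneg _)]
  nlinarith [hv.psi_pos x, psi_le_one v x]

/-- `ψ² g` is integrable if `|g| ≤ C |f|` -/
theorem Ad.ig2 (hv : Sol v) (hf : Ad v f M) {g : EE n → ℝ} (hg : Measurable g) {C : ℝ}
    (h : ∀ x, |g x| ≤ C * |f x|) : Integrable fun x => psi v x ^ 2 * g x := by
  refine (hf.ig.abs.const_mul C).mono'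
    ((hv.psi_sm.continuous.measurable.pow_const 2).mul hg).aestronglyMeasurable
    (Eventually.of_forall fun x => ?_)
  rw [Real.norm_eq_abs, abs_mul, abs_mul, abs_of_nonneg (sq_nonneg _)]
  calc psi v x ^ 2 * |g x| ≤ psi v x ^ 2 * (C * |f x|) := by gcongr; exact h x
    _ = C * (psi v x ^ 2 * |f x|) := by ring

theorem Dom.ig (hv : Sol v) (hf : Ad v f M) {h : EE n × EE n → ℝ} (hh : Dom f h) :
    Integrable (fun p => Kp v p * h p) (volume.prod volume) := by
  obtain ⟨C, hC⟩ := hh.bd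
  have i0 : Integrable fun x => psi v x ^ 2 * |f x| :=
    hf.ig2 hv hf.ms.abs (C := 1) fun x => by simp
  have m0 : AEStronglyMeasurable (fun x => psi v x ^ 2) volume :=
    (hv.psi_sm.continuous.pow 2).aestronglyMeasurable
  have i1 := integrable_ker (integrable_Gk (n := n) two_pos) i0 m0 (psi_sq_le hv)
  have i2 := integrable_ker' (integrable_Gk (n := n) two_pos) m0 (psi_sq_le hv) i0
  refine ((i1.add i2).const_mul C).mono' ((measurable_Kp hv).mul hh.ms).aestronglyMeasurable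
    (Eventually.of_forall fun p => ?_)
  rw [Real.norm_eq_abs, abs_mul, abs_of_nonneg (Kp_nonneg v p)]
  refine (mul_le_mul_of_nonneg_left (hC p) (Kp_nonneg v p)).trans (le_of_eq ?_)
  simp only [Kp, Pi.add_apply]
  ring

theorem II_swap (v : EE n → ℝ) (h : EE n × EE n → ℝ) : II v (fun p => h p.swap) = II v h := by
  rw [II, II, ← integral_prod_swap fun p => Kp v p * h p]
  simp only [Kp_swap]

theorem II_add (hv : Sol v) (hf : Ad v f M) {h g : EE n × EE n → ℝ} (hh : Dom f h)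
    (hg : Dom f g) : II v (fun p => h p + g p) = II v h + II v g := by
  simp only [II, mul_add]
  exact integral_add (hh.ig hv hf) (hg.ig hv hf)

theorem II_const_mul (v : EE n → ℝ) (c : ℝ) (h : EE n × EE n → ℝ) :
    II v (fun p => c * h p) = c * II v h := by
  simp only [II, ← integral_const_mul]
  exact integral_congr_ae (Eventually.of_forall fun p => by ring)

theorem II_mono (hv : Sol v) (hf : Ad v f M) {h g : EE n × EE n → ℝ} (hh : Dom f h)
    (hg : Dom f g) (H : ∀ p, h p ≤ g p) : II v h ≤ II v g :=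
  integral_mono (hh.ig hv hf) (hg.ig hv hf) fun p =>
    mul_le_mul_of_nonneg_left (H p) (Kp_nonneg v p)

theorem II_nonneg (v : EE n → ℝ) {h : EE n × EE n → ℝ} (H : ∀ p, 0 ≤ h p) : 0 ≤ II v h :=
  integral_nonneg fun p => mul_nonneg (Kp_nonneg v p) (H p)

theorem Dom.add {h g : EE n × EE n → ℝ} (hh : Dom f h) (hg : Dom f g) :
    Dom f fun p => h p + g p := by
  obtain ⟨C, hC⟩ := hh.bd
  obtain ⟨D, hD⟩ := hg.bd
  exact ⟨hh.ms.add hg.ms, C + D, fun p => (abs_add_le _ _).trans (by linarith [hC p, hD p])⟩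

theorem Dom.swap {h : EE n × EE n → ℝ} (hh : Dom f h) : Dom f fun p => h p.swap := by
  obtain ⟨C, hC⟩ := hh.bd
  exact ⟨hh.ms.comp measurable_swap, C, fun p => (hC p.swap).trans (by simp [add_comm])⟩

/-- multiplication by a bounded measurable factor -/
theorem Dom.bmul {h c : EE n × EE n → ℝ} (hh : Dom f h) (hc : Measurable c) {A : ℝ}
    (hA : ∀ p, |c p| ≤ A) : Dom f fun p => c p * h p := by
  obtain ⟨C, hC⟩ := hh.bd
  refine ⟨hc.mul hh.ms, A * C, fun p => ?_⟩
  rw [abs_mul, mul_assoc]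
  exact mul_le_mul (hA p) (hC p) (abs_nonneg _) ((abs_nonneg _).trans (hA p))

theorem Dom.cmul {h : EE n × EE n → ℝ} (hh : Dom f h) (c : ℝ) : Dom f fun p => c * h p :=
  hh.bmul (c := fun _ => c) measurable_const (A := |c|) fun _ => le_rfl

theorem Ad.dom1 (hf : Ad v f M) : Dom f fun p => f p.1 :=
  ⟨hf.ms.comp measurable_fst, 1, fun p => by linarith [abs_nonneg (f p.2)]⟩

theorem Ad.dom11 (hf : Ad v f M) : Dom f fun p => f p.1 ^ 2 := by
  simpa only [sq] using hf.dom1.bmul (c := fun p => f p.1) (hf.ms.comp measurable_fst)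
    fun p => hf.bd p.1

theorem Ad.dom22 (hf : Ad v f M) : Dom f fun p => f p.2 ^ 2 := hf.dom11.swap

theorem Ad.dom12 (hf : Ad v f M) : Dom f fun p => f p.1 * f p.2 := by
  simpa only [mul_comm] using hf.dom1.bmul (c := fun p => f p.2) (hf.ms.comp measurable_snd)
    fun p => hf.bd p.2

theorem Ad.domd (hf : Ad v f M) : Dom f fun p => (f p.1 - f p.2) ^ 2 := by
  have := (hf.dom11.add hf.dom22).add (hf.dom12.cmul (-2))
  convert this using 2
  ring

/-- pair integrals as iterated lower integrals -/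
theorem ofReal_II (hv : Sol v) (hf : Ad v f M) {h : EE n × EE n → ℝ} (hh : Dom f h)
    (H : ∀ p, 0 ≤ h p) : ENNReal.ofReal (II v h) = ∫⁻ x, ∫⁻ y,
      ENNReal.ofReal (psi v x ^ 2 * Gk 2 (y - x) * psi v y ^ 2) * ENNReal.ofReal (h (x, y)) := by
  rw [II, ofReal_integral_eq_lintegral_ofReal (hh.ig hv hf)
    (Eventually.of_forall fun p => mul_nonneg (Kp_nonneg v p) (H p)),
    lintegral_prod (fun p => ENNReal.ofReal (Kp v p * h p))
      ((measurable_Kp hv).mul hh.ms).ennreal_ofReal.aemeasurable]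
  refine lintegral_congr fun x => lintegral_congr fun y => ?_
  rw [ENNReal.ofReal_mul (Kp_nonneg v _)]
  rfl

/-- the pairing with the resolvent as a pair integral -/
theorem pair_res (hv : Sol v) (hf : Ad v f M) {a b : EE n → ℝ} (ha : Measurable a)
    (hb : Measurable b) {C D : ℝ} (h1 : ∀ x, |a x| ≤ C * |f x|) (h2 : ∀ x, |b x| ≤ D) :
    ∫ x, psi v x ^ 2 * a x * res 2 (fun y => psi v y ^ 2 * b y) x =
      II v fun p => a p.1 * b p.2 := by
  rw [integral_res_mul two_pos (hf.ig2 hv ha h1) (M := D) (g := fun y => psi v y ^ 2 * b y)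
    ((hv.psi_sm.continuous.measurable.pow_const 2).mul hb).aestronglyMeasurable fun x => ?_, II]
  · exact integral_congr_ae (Eventually.of_forall fun p => by simp only [Kp]; ring)
  · rw [abs_mul]
    simpa using mul_le_mul (psi_sq_le hv x) (h2 x) (abs_nonneg _) zero_le_one

theorem res_const_mul (c : ℝ) (g : EE n → ℝ) (x : EE n) :
    res 2 (fun y => c * g y) x = c * res 2 g x := cv_const_mul _ _ _ _

/-- dual stability for `a = ψ m f`, `|m| ≤ 1` -/
theorem dual' (hv : Sol v) (hs : Stable v) (hf : Ad v f M) {m : EE n → ℝ} (hm : Measurable m)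
    (h1 : ∀ x, |m x| ≤ 1) : 3 * II v (fun p => m p.1 * f p.1 * (m p.2 * f p.2)) ≤
      ∫ x, psi v x ^ 3 * (m x * f x) ^ 2 := by
  have b1 : ∀ x, |m x * f x| ≤ 1 * |f x| := fun x => by
    rw [abs_mul]; exact mul_le_mul_of_nonneg_right (h1 x) (abs_nonneg _)
  have b2 : ∀ x, |m x * f x| ≤ M := fun x => (b1 x).trans (by simpa using hf.bd x)
  have h := dual hv.isSol hs (a := fun x => psi v x * (m x * f x)) (M := M)
    (hv.psi_sm.continuous.measurable.mul (hm.mul hf.ms)).aestronglyMeasurable (fun x => ?_) ?_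
  · rw [← pair_res hv hf (a := fun x => m x * f x) (b := fun x => m x * f x) (hm.mul hf.ms)
      (hm.mul hf.ms) b1 b2]
    have e1 : ∀ x, res 2 (fun y => 3 * psi v y * (psi v y * (m y * f y))) x *
        (3 * psi v x * (psi v x * (m x * f x))) = 9 * (psi v x ^ 2 * (m x * f x) *
          res 2 (fun y => psi v y ^ 2 * (m y * f y)) x) := fun x => by
      rw [show (fun y => 3 * psi v y * (psi v y * (m y * f y))) =
        fun y => 3 * (psi v y ^ 2 * (m y * f y)) from funext fun y => by ring, res_const_mul]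
      ring
    have e2 : ∀ x, 3 * psi v x * (psi v x * (m x * f x)) ^ 2 =
        3 * (psi v x ^ 3 * (m x * f x) ^ 2) := fun x => by ring
    simp only [e1, e2, integral_const_mul] at h
    linarith
  · rw [abs_mul, abs_of_pos (hv.psi_pos x)]
    have := mul_le_mul (psi_le_one v x) (b2 x) (abs_nonneg _) zero_le_one
    simpa using this
  · simpa only [sq, mul_assoc] using hf.ig2 hv (g := fun x => m x * f x) (hm.mul hf.ms) b1

theorem abs_pdv_dd_le (hv : Sol v) (i : Fin n) (x : EE n) : |pdv i (dd v) x| ≤ 1 := by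
  have h1 := hv.gsq_dd_le x
  have h2 : pdv i (dd v) x ^ 2 ≤ gsq (dd v) x :=
    Finset.single_le_sum (f := fun i => pdv i (dd v) x ^ 2) (fun _ _ => sq_nonneg _)
      (Finset.mem_univ i)
  exact abs_le_one_iff_mul_self_le_one.2 (by nlinarith)

theorem psi_pdv_res (hv : Sol v) (i : Fin n) (x : EE n) :
    psi v x * pdv i (dd v) x = 3 * res 2 (fun y => psi v y ^ 2 * pdv i (dd v) y) x := by
  have h := congrFun (pdv_eq_res hv.isSol i) x
  rw [show (fun y => 3 * psi v y * pdv i v y) =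
    fun y => 3 / √2 * (psi v y ^ 2 * pdv i (dd v) y) from funext fun y => by
      rw [hv.pdv_v]; ring, res_const_mul, hv.pdv_v] at h
  have h2 := sqrt2_pos
  field_simp at h
  linarith

theorem sq_le_abs (hf : Ad v f M) (x : EE n) : |f x ^ 2| ≤ M * |f x| := by
  rw [sq, abs_mul]; exact mul_le_mul_of_nonneg_right (hf.bd x) (abs_nonneg _)

theorem measurable_N (hv : Sol v) : Measurable fun x => ‖∇ (dd v) x‖ :=
  (St.continuous_grad (hv.dd_cd 1)).norm.measurable

theorem measurable_nn (hv : Sol v) :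
    Measurable fun p : EE n × EE n => ⟪∇ (dd v) p.1, ∇ (dd v) p.2⟫ :=
  (((St.continuous_grad (hv.dd_cd 1)).comp continuous_fst).inner
    ((St.continuous_grad (hv.dd_cd 1)).comp continuous_snd)).measurable

theorem measurable_NN (hv : Sol v) :
    Measurable fun p : EE n × EE n => ‖∇ (dd v) p.1‖ * ‖∇ (dd v) p.2‖ :=
  ((measurable_N hv).comp measurable_fst).mul ((measurable_N hv).comp measurable_snd)

theorem NN_le (hv : Sol v) (x y : EE n) : ‖∇ (dd v) x‖ * ‖∇ (dd v) y‖ ≤ 1 :=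
  mul_le_one₀ (hv.norm_grad_dd_le x) (norm_nonneg _) (hv.norm_grad_dd_le y)

theorem abs_NN_le (hv : Sol v) (p : EE n × EE n) : |‖∇ (dd v) p.1‖ * ‖∇ (dd v) p.2‖| ≤ 1 := by
  rw [abs_of_nonneg (by positivity)]; exact NN_le hv _ _

theorem abs_nn_le (hv : Sol v) (p : EE n × EE n) : |⟪∇ (dd v) p.1, ∇ (dd v) p.2⟫| ≤ 1 :=
  (abs_real_inner_le_norm _ _).trans (NN_le hv _ _)

/-- NSZ, first form -/
theorem nsz0 (hv : Sol v) (hs : Stable v) (hf : Ad v f M) :
    II v (fun p => ‖∇ (dd v) p.1‖ * ‖∇ (dd v) p.2‖ * (f p.1 * f p.2)) ≤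
      II v fun p => ⟪∇ (dd v) p.1, ∇ (dd v) p.2⟫ * f p.1 ^ 2 := by
  have h := dual' hv hs hf (measurable_N hv) fun x => by
    rw [abs_norm]; exact hv.norm_grad_dd_le x
  have mp : ∀ i, Measurable (pdv i (dd v)) := fun i => (hv.pdv_dd_sm i).continuous.measurable
  have b1 : ∀ i x, |pdv i (dd v) x * f x ^ 2| ≤ M * |f x| := fun i x => by
    rw [abs_mul]
    simpa using mul_le_mul (abs_pdv_dd_le hv i x) (sq_le_abs hf x) (abs_nonneg _) zero_le_one
  have e1 : ∀ i, ∫ x, psi v x ^ 3 * (pdv i (dd v) x * f x) ^ 2 =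
      3 * II v fun p => pdv i (dd v) p.1 * f p.1 ^ 2 * pdv i (dd v) p.2 := fun i => by
    rw [← pair_res hv hf (a := fun x => pdv i (dd v) x * f x ^ 2)
      ((mp i).mul (hf.ms.pow_const 2)) (mp i) (b1 i) (abs_pdv_dd_le hv i),
      ← integral_const_mul]
    refine integral_congr_ae (Eventually.of_forall fun x => ?_)
    have := psi_pdv_res hv i x
    simp only
    linear_combination (psi v x ^ 2 * pdv i (dd v) x * f x ^ 2) * this
  have i1 : ∀ i, Integrable fun x => psi v x ^ 3 * (pdv i (dd v) x * f x) ^ 2 := fun i => by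
    have := hf.ig2 hv (g := fun x => psi v x * pdv i (dd v) x * (pdv i (dd v) x * f x ^ 2))
      ((hv.psi_sm.continuous.measurable.mul (mp i)).mul ((mp i).mul (hf.ms.pow_const 2)))
      (C := M) fun x => by
        rw [abs_mul, abs_mul, abs_of_pos (hv.psi_pos x)]
        simpa using mul_le_mul (mul_le_one₀ (psi_le_one v x) (abs_nonneg _)
          (abs_pdv_dd_le hv i x)) (b1 i x) (abs_nonneg _) zero_le_one
    exact this.congr (Eventually.of_forall fun x => by simp only; ring)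
  have d1 : ∀ i, Dom f fun p => pdv i (dd v) p.1 * f p.1 ^ 2 * pdv i (dd v) p.2 := fun i => by
    have := (hf.dom11.bmul (c := fun p => pdv i (dd v) p.1) ((mp i).comp measurable_fst)
      fun p => abs_pdv_dd_le hv i p.1).bmul (c := fun p => pdv i (dd v) p.2)
      ((mp i).comp measurable_snd) fun p => abs_pdv_dd_le hv i p.2
    simpa only [mul_comm] using this
  have e2 : ∫ x, psi v x ^ 3 * (‖∇ (dd v) x‖ * f x) ^ 2 =
      ∑ i, ∫ x, psi v x ^ 3 * (pdv i (dd v) x * f x) ^ 2 := by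
    rw [← integral_finsetSum _ fun i _ => i1 i]
    refine integral_congr_ae (Eventually.of_forall fun x => ?_)
    simp only [mul_pow, St.norm_grad_sq, Finset.mul_sum, Finset.sum_mul]
  have e3 : II v (fun p => ⟪∇ (dd v) p.1, ∇ (dd v) p.2⟫ * f p.1 ^ 2) =
      ∑ i, II v fun p => pdv i (dd v) p.1 * f p.1 ^ 2 * pdv i (dd v) p.2 := by
    simp only [II]
    rw [← integral_finsetSum _ fun i _ => (d1 i).ig hv hf]
    refine integral_congr_ae (Eventually.of_forall fun p => ?_)
    simp only [PiLp.inner_apply, St.grad_apply, Finset.mul_sum, Finset.sum_mul, RCLike.inner_apply,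
      conj_trivial]
    exact Finset.sum_congr rfl fun i _ => by ring
  rw [e2, Finset.sum_congr rfl fun i _ => e1 i, ← Finset.mul_sum, ← e3] at h
  have e4 : II v (fun p => ‖∇ (dd v) p.1‖ * ‖∇ (dd v) p.2‖ * (f p.1 * f p.2)) =
      II v fun p => ‖∇ (dd v) p.1‖ * f p.1 * (‖∇ (dd v) p.2‖ * f p.2) :=
    congrArg (II v) (funext fun p => by ring)
  linarith

/-- a symmetric weight: the form of the differences -/
theorem II_diff (hv : Sol v) (hf : Ad v f M) {c : EE n × EE n → ℝ} (hc : Measurable c) {A : ℝ}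
    (hA : ∀ p, |c p| ≤ A) (hs : ∀ p, c p.swap = c p) :
    II v (fun p => c p * (f p.1 - f p.2) ^ 2) =
      2 * II v (fun p => c p * f p.1 ^ 2) - 2 * II v fun p => c p * (f p.1 * f p.2) := by
  have d1 := hf.dom11.bmul hc hA
  have d2 := hf.dom22.bmul hc hA
  have d3 := hf.dom12.bmul hc hA
  have e1 : II v (fun p => c p * f p.2 ^ 2) = II v fun p => c p * f p.1 ^ 2 := by
    rw [← II_swap v fun p => c p * f p.1 ^ 2]
    simp only [hs, Prod.fst_swap]
  have e2 := II_add hv hf (d1.add d2) (d3.cmul (-2))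
  rw [II_add hv hf d1 d2, II_const_mul, e1] at e2
  rw [show (fun p : EE n × EE n => c p * (f p.1 - f p.2) ^ 2) = fun p =>
    c p * f p.1 ^ 2 + c p * f p.2 ^ 2 + -2 * (c p * (f p.1 * f p.2)) from funext fun p => by ring,
    e2]
  ring

/-- NSZ -/
theorem nsz (hv : Sol v) (hs : Stable v) (hf : Ad v f M) :
    2 * II v (fun p => (‖∇ (dd v) p.1‖ * ‖∇ (dd v) p.2‖ - ⟪∇ (dd v) p.1, ∇ (dd v) p.2⟫) *
      f p.1 ^ 2) ≤ II v fun p => ‖∇ (dd v) p.1‖ * ‖∇ (dd v) p.2‖ * (f p.1 - f p.2) ^ 2 := by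
  have h1 := nsz0 hv hs hf
  have h2 := II_diff hv hf (measurable_NN hv) (abs_NN_le hv) fun p => mul_comm _ _
  have h3 := II_add hv hf (hf.dom11.bmul (measurable_NN hv) (abs_NN_le hv))
    ((hf.dom11.bmul (measurable_nn hv) (abs_nn_le hv)).cmul (-1))
  rw [II_const_mul] at h3
  rw [show (fun p : EE n × EE n => (‖∇ (dd v) p.1‖ * ‖∇ (dd v) p.2‖ -
    ⟪∇ (dd v) p.1, ∇ (dd v) p.2⟫) * f p.1 ^ 2) = fun p => ‖∇ (dd v) p.1‖ * ‖∇ (dd v) p.2‖ *
      f p.1 ^ 2 + -1 * (⟪∇ (dd v) p.1, ∇ (dd v) p.2⟫ * f p.1 ^ 2) from funext fun p => by ring, h3]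
  linarith

theorem abs_tt_le (hv : Sol v) (x : EE n) : |tt v x| ≤ 1 := by
  rw [abs_of_nonneg (hv.tt_nonneg x)]; exact tt_le_one v x

/-- `∫ ψ³ g = ∬ k (3 - t') g` -/
theorem psi_cube (hv : Sol v) (hf : Ad v f M) {g : EE n → ℝ} (hg : Measurable g) {C : ℝ}
    (h : ∀ x, |g x| ≤ C * |f x|) :
    ∫ x, psi v x ^ 3 * g x = II v fun p => g p.1 * (3 - tt v p.2) := by
  rw [← pair_res hv hf (b := fun y => 3 - tt v y) hg
    (measurable_const.sub hv.tt_sm.continuous.measurable) h (D := 3)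
    fun x => abs_le.2 ⟨by linarith [tt_le_one v x], by linarith [hv.tt_nonneg x]⟩]
  refine integral_congr_ae (Eventually.of_forall fun x => ?_)
  have := congrFun (psi_eq_res hv) x
  simp only
  rw [← this]
  ring

/-- D1 -/
theorem d1 (hv : Sol v) (hs : Stable v) (hf : Ad v f M) :
    II v (fun p => tt v p.2 * f p.1 ^ 2) ≤ 3 / 2 * II v fun p => (f p.1 - f p.2) ^ 2 := by
  have h1 := dual' hv hs hf (m := fun _ => 1) measurable_const fun _ => by simp
  have h2 := II_diff hv hf (c := fun _ => 1) measurable_const (A := 1) (fun _ => by simp)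
    fun _ => rfl
  have h3 := psi_cube hv hf (hf.ms.pow_const 2) (sq_le_abs hf)
  have h4 := II_add hv hf (hf.dom11.cmul 3) ((hf.dom11.bmul (c := fun p => tt v p.2)
    (hv.tt_sm.continuous.measurable.comp measurable_snd) fun p => abs_tt_le hv p.2).cmul (-1))
  rw [II_const_mul, II_const_mul] at h4
  simp only [one_mul] at h1 h2
  rw [show (fun p : EE n × EE n => f p.1 ^ 2 * (3 - tt v p.2)) = fun p =>
    3 * f p.1 ^ 2 + -1 * (tt v p.2 * f p.1 ^ 2) from funext fun p => by ring, h4] at h3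
  linarith

theorem gf_nonneg (v : EE n → ℝ) (x y : EE n) : 0 ≤ gf v x y :=
  sub_nonneg.2 (real_inner_le_norm _ _)

theorem measurable_gf (hv : Sol v) : Measurable fun p : EE n × EE n => gf v p.1 p.2 :=
  (measurable_NN hv).sub (measurable_nn hv)

theorem abs_gf_le (hv : Sol v) (p : EE n × EE n) : |gf v p.1 p.2| ≤ 2 :=
  (abs_sub _ _).trans ((add_le_add (abs_NN_le hv p) (abs_nn_le hv p)).trans_eq (by norm_num))

theorem gf_comm (v : EE n → ℝ) (x y : EE n) : gf v y x = gf v x y := by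
  simp only [gf, mul_comm, real_inner_comm]

theorem ad_of_adm {A : ℝ} (hf : Adm v f A) : Ad v f A :=
  ⟨hf.meas, fun x => by rw [abs_of_nonneg (hf.nonneg x)]; exact hf.le x, hf.int⟩

theorem LI_eq (hv : Sol v) (hf : Ad v f M) {h : EE n × EE n → ℝ} (hh : Dom f h)
    (H : ∀ p, 0 ≤ h p) : LI v (fun x y => h (x, y)) = ENNReal.ofReal (II v h) :=
  (ofReal_II hv hf hh H).symm

end

end Crest.Agent.N067.S.Nz

namespace Crest.Agent.N067.S

open Crest.Agent.R077 Crest.Agent.N067.Ker Nz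


end Crest.Agent.N067.S
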